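import Vale.Agent.P275FM.Les
import Mathlib.LinearAlgebra.Trace
import Mathlib.LinearAlgebra.Dimension.RankNullity

/-!
# Euler characteristics of differential modules with a parity
-/

noncomputable section

namespace Vale.Agent.P269HS

open Vale.Agent.P275FM LinearMap

section tr

variable {U V W : Type*} [AddCommGroup U] [Module ℂ U] [AddCommGroup V] [Module ℂ V]
  [AddCommGroup W] [Module ℂ W]

/-- the trace is additive along a short exact sequence -/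
theorem trace_ses [Module.Finite ℂ V] (a : U →ₗ[ℂ] V) (b : V →ₗ[ℂ] W) (ha : Function.Injective a)
    (hb : Function.Surjective b) (hab : ∀ x, b x = 0 ↔ ∃ y, x = a y) (e : Module.End ℂ U)
    (f : Module.End ℂ V) (g : Module.End ℂ W) (h1 : ∀ x, f (a x) = a (e x))
    (h2 : ∀ x, g (b x) = b (f x)) : trace ℂ V f = trace ℂ U e + trace ℂ W g := by
  haveI : Module.Finite ℂ U := Module.Finite.of_injective a ha
  haveI : Module.Finite ℂ W := Module.Finite.of_surjective b hb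
  obtain ⟨s, hs⟩ := b.exists_rightInverse_of_surjective (LinearMap.range_eq_top.2 hb)
  obtain ⟨r, hr⟩ := a.exists_leftInverse_of_injective (LinearMap.ker_eq_bot.2 ha)
  have hs' : ∀ x, b (s x) = x := LinearMap.congr_fun hs
  have hr' : ∀ x, r (a x) = x := LinearMap.congr_fun hr
  let ρ : V →ₗ[ℂ] U := r ∘ₗ (LinearMap.id - s ∘ₗ b)
  have hρ : ∀ x, a (ρ x) = x - s (b x) := by
    intro x
    obtain ⟨y, hy⟩ := (hab (x - s (b x))).1 (by rw [map_sub, hs', sub_self])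
    show a (r (x - s (b x))) = _
    rw [hy, hr']
  have e1 : f = (f ∘ₗ a) ∘ₗ ρ + (f ∘ₗ s) ∘ₗ b := by
    ext x
    simp only [LinearMap.add_apply, LinearMap.comp_apply]
    rw [hρ, ← map_add, sub_add_cancel]
  have e2 : ρ ∘ₗ (f ∘ₗ a) = e := by
    ext x
    apply ha
    simp only [LinearMap.comp_apply]
    rw [hρ, h1, (hab _).2 ⟨_, rfl⟩, map_zero, sub_zero]
  have e3 : b ∘ₗ (f ∘ₗ s) = g := by
    ext x
    simp only [LinearMap.comp_apply]
    rw [← h2, hs']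
  rw [e1, map_add, trace_comp_comm', trace_comp_comm' b, e2, e3]

theorem trace_ker [Module.Finite ℂ U] (a : U →ₗ[ℂ] V) (b : V →ₗ[ℂ] W)
    (hab : ∀ x, b x = 0 ↔ ∃ y, x = a y) (e : Module.End ℂ U) (f : Module.End ℂ V)
    (h1 : ∀ x, f (a x) = a (e x)) (he : ∀ x ∈ ker a, e x ∈ ker a) (hf : ∀ x ∈ ker b, f x ∈ ker b) :
    trace ℂ U e = trace ℂ (ker a) (e.restrict he) + trace ℂ (ker b) (f.restrict hf) := by
  refine trace_ses (ker a).subtype (a.codRestrict (ker b) fun x => (hab _).2 ⟨x, rfl⟩)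
    Subtype.val_injective ?_ ?_ _ _ _ (fun _ => rfl) (fun x => Subtype.ext (h1 x))
  · rintro ⟨x, hx⟩
    obtain ⟨y, rfl⟩ := (hab x).1 hx
    exact ⟨y, rfl⟩
  · intro x
    constructor
    · intro h
      exact ⟨⟨x, congrArg Subtype.val h⟩, rfl⟩
    · rintro ⟨y, rfl⟩
      exact Subtype.ext y.2

/-- traces on an exact triangle -/
theorem trace_tri [Module.Finite ℂ U] [Module.Finite ℂ V] [Module.Finite ℂ W] (a : U →ₗ[ℂ] V)
    (b : V →ₗ[ℂ] W) (c : W →ₗ[ℂ] U) (hab : ∀ x, b x = 0 ↔ ∃ y, x = a y)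
    (hbc : ∀ x, c x = 0 ↔ ∃ y, x = b y) (hca : ∀ x, a x = 0 ↔ ∃ y, x = c y) (e : Module.End ℂ U)
    (f : Module.End ℂ V) (g : Module.End ℂ W) (h1 : ∀ x, f (a x) = a (e x))
    (h2 : ∀ x, g (b x) = b (f x)) (h3 : ∀ x, e (c x) = -c (g x)) :
    trace ℂ V f = trace ℂ U e + trace ℂ W g := by
  have ka : ∀ x ∈ ker a, e x ∈ ker a := fun x hx => by
    rw [mem_ker] at hx ⊢; rw [← h1, hx, map_zero]
  have kb : ∀ x ∈ ker b, f x ∈ ker b := fun x hx => by
    rw [mem_ker] at hx ⊢; rw [← h2, hx, map_zero]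
  have kc : ∀ x ∈ ker c, g x ∈ ker c := fun x hx => by
    rw [mem_ker] at hx ⊢
    have := h3 x
    rw [hx, map_zero, eq_comm, neg_eq_zero] at this
    exact this
  have ka' : ∀ x ∈ ker a, (-e) x ∈ ker a := fun x hx => (ker a).neg_mem (ka x hx)
  have t1 := trace_ker a b hab e f h1 ka kb
  have t2 := trace_ker b c hbc f g h2 kb kc
  have t3 := trace_ker c a hca g (-e) (fun x => by rw [LinearMap.neg_apply, h3, neg_neg]) kc ka'
  have t4 : (-e).restrict ka' = -e.restrict ka := rfl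
  rw [t4, map_neg] at t3
  rw [t1, t2, t3]
  ring

theorem finite_mid [Module.Finite ℂ U] [Module.Finite ℂ W] (a : U →ₗ[ℂ] V) (b : V →ₗ[ℂ] W)
    (hab : ∀ x, b x = 0 ↔ ∃ y, x = a y) : Module.Finite ℂ V := by
  have h1 : ker b = range a := by
    ext x
    rw [mem_ker, hab]
    exact exists_congr fun _ => eq_comm
  have h2 : (ker b).FG := by
    rw [h1]
    exact Submodule.fg_range a
  have h3 : (Submodule.map b ⊤).FG := IsNoetherian.noetherian _
  exact ⟨Submodule.fg_of_fg_map_of_fg_inf_ker b h3 (by rwa [top_inf_eq])⟩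

end tr

variable {T₁ T T₂ : Type*} [AddCommGroup T₁] [Module ℂ T₁] [AddCommGroup T] [Module ℂ T]
  [AddCommGroup T₂] [Module ℂ T₂]

/-- finite dimensional cohomology -/
abbrev Fd (D : Module.End ℂ T) : Prop := Module.Finite ℂ (Coh D)

open Classical in
/-- the Euler characteristic: the trace of the parity on the cohomology -/
def chi (D σ : Module.End ℂ T) : ℂ :=
  if h : Ch D D σ then trace ℂ (Coh D) (Coh.map σ h) else 0

variable {D₁ σ₁ : Module.End ℂ T₁} {D σ : Module.End ℂ T} {D₂ σ₂ : Module.End ℂ T₂}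
  {i : T₁ →ₗ[ℂ] T} {p : T →ₗ[ℂ] T₂}

theorem chi_eq (h : Ch D D σ) : chi D σ = trace ℂ (Coh D) (Coh.map σ h) := dif_pos h

theorem fd_mid (h : SES D₁ D D₂ i p) (h1 : Fd D₁) (h2 : Fd D₂) : Fd D :=
  finite_mid _ _ h.ex_mid

theorem fd_quo (h : SES D₁ D D₂ i p) (h1 : Fd D₁) (h0 : Fd D) : Fd D₂ :=
  finite_mid _ _ h.ex_quo

theorem fd_sub (h : SES D₁ D D₂ i p) (h0 : Fd D) (h2 : Fd D₂) : Fd D₁ :=
  finite_mid _ _ h.ex_sub

theorem anti_sub (h : SES D₁ D D₂ i p) (hσ : ∀ a, D (σ a) = -σ (D a))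
    (hi : ∀ a, σ (i a) = i (σ₁ a)) (a : T₁) : D₁ (σ₁ a) = -σ₁ (D₁ a) :=
  h.inj (by rw [← h.di, ← hi, hσ, map_neg, ← hi, h.di])

theorem anti_quo (h : SES D₁ D D₂ i p) (hσ : ∀ a, D (σ a) = -σ (D a))
    (hp : ∀ a, σ₂ (p a) = p (σ a)) (a : T₂) : D₂ (σ₂ a) = -σ₂ (D₂ a) := by
  obtain ⟨b, rfl⟩ := h.surj a
  rw [hp, h.dp, hσ, map_neg, h.dp, hp]

/-- additivity of the Euler characteristic -/
theorem chi_ses (h : SES D₁ D D₂ i p) (h1 : Fd D₁) (h2 : Fd D₂) (hσ : ∀ a, D (σ a) = -σ (D a))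
    (hi : ∀ a, σ (i a) = i (σ₁ a)) (hp : ∀ a, σ₂ (p a) = p (σ a)) :
    chi D σ = chi D₁ σ₁ + chi D₂ σ₂ := by
  have h0 := fd_mid h h1 h2
  have c0 := Ch.of_anti hσ
  have c1 := Ch.of_anti (anti_sub h hσ hi)
  have c2 := Ch.of_anti (anti_quo h hσ hp)
  rw [chi_eq c0, chi_eq c1, chi_eq c2]
  refine trace_tri _ _ _ h.ex_mid h.ex_quo h.ex_sub _ _ _ (fun x => ?_) (fun x => ?_) (fun x => ?_)
  · obtain ⟨z, hz, rfl⟩ := Coh.ind x
    exact Coh.mk_congr (hi z) _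
  · obtain ⟨z, hz, rfl⟩ := Coh.ind x
    exact Coh.mk_congr (hp z) _
  · obtain ⟨z, y, hz, hy, e, rfl⟩ := h.rep x
    have hy' : D₁ (-σ₁ y) = 0 := by rw [map_neg, c1.cyc y hy, neg_zero]
    have hz' : D₂ (p (σ z)) = 0 := by rw [← hp]; exact c2.cyc _ hz
    rw [h.isBd z y hz hy e, Coh.map_mk, Coh.map_mk, Coh.mk_congr (hp z),
      h.isBd (σ z) (-σ₁ y) hz' hy' (by rw [map_neg, ← hi, e, hσ]), eq_neg_iff_add_eq_zero,
      ← Coh.mk_add _ _ (by rw [add_neg_cancel, map_zero])]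
    exact Coh.mk_eq_zero.2 ⟨0, by rw [add_neg_cancel, map_zero]⟩

theorem fd_of_bij {f : T₁ →ₗ[ℂ] T} (hf : Ch D₁ D f) (hb : Function.Bijective (Coh.map f hf)) :
    Fd D₁ ↔ Fd D :=
  ⟨fun _ => Module.Finite.of_surjective _ hb.2, fun _ => Module.Finite.of_injective _ hb.1⟩

/-- invariance under quasi-isomorphisms -/
theorem chi_of_bij {f : T₁ →ₗ[ℂ] T} (hf : Ch D₁ D f) (hb : Function.Bijective (Coh.map f hf))
    (c1 : Ch D₁ D₁ σ₁) (c0 : Ch D D σ) (hσ : ∀ a, D₁ a = 0 → σ (f a) = f (σ₁ a)) :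
    chi D₁ σ₁ = chi D σ := by
  rw [chi_eq c0, chi_eq c1, ← trace_conj' (Coh.map σ₁ c1) (LinearEquiv.ofBijective _ hb)]
  congr 1
  refine LinearMap.ext fun x => ?_
  obtain ⟨y, rfl⟩ := (LinearEquiv.ofBijective _ hb).surjective x
  rw [LinearEquiv.conj_apply_apply, LinearEquiv.symm_apply_apply]
  obtain ⟨z, hz, rfl⟩ := Coh.ind y
  exact Coh.mk_congr (hσ z hz).symm _

theorem ch_neg (c : Ch D D σ) : Ch D D (-σ) :=
  ⟨fun z hz => by rw [LinearMap.neg_apply, map_neg, c.cyc z hz, neg_zero], fun y => by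
    obtain ⟨y', h⟩ := c.bd y
    exact ⟨-y', by rw [LinearMap.neg_apply, h, map_neg]⟩⟩

theorem chi_neg (c : Ch D D σ) : chi D (-σ) = -chi D σ := by
  rw [chi_eq c, chi_eq (ch_neg c), ← map_neg]
  congr 1
  refine LinearMap.ext fun x => ?_
  obtain ⟨z, hz, rfl⟩ := Coh.ind x
  rw [LinearMap.neg_apply, Coh.map_mk, Coh.map_mk, eq_neg_iff_add_eq_zero,
    ← Coh.mk_add _ _ (by rw [LinearMap.neg_apply, neg_add_cancel, map_zero])]
  exact Coh.mk_eq_zero.2 ⟨0, by rw [LinearMap.neg_apply, neg_add_cancel, map_zero]⟩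

/-- an isomorphism of differential modules is a quasi-isomorphism -/
theorem bij_of_bij {f : T₁ →ₗ[ℂ] T} (hD : ∀ a, D (f a) = f (D₁ a)) (hb : Function.Bijective f) :
    Function.Bijective (Coh.map f (Ch.of_comm hD)) := by
  constructor
  · rw [Coh.map_inj]
    intro z y' _ h
    obtain ⟨y, rfl⟩ := hb.2 y'
    exact ⟨y, hb.1 (by rw [h, hD])⟩
  · rw [Coh.map_surj]
    intro z' hz'
    obtain ⟨z, rfl⟩ := hb.2 z'
    exact ⟨z, 0, hb.1 (by rw [← hD, hz', map_zero]), by rw [sub_self, map_zero]⟩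

theorem fd_iso {f : T₁ →ₗ[ℂ] T} (hD : ∀ a, D (f a) = f (D₁ a)) (hb : Function.Bijective f) :
    Fd D₁ ↔ Fd D := fd_of_bij _ (bij_of_bij hD hb)

theorem chi_iso {f : T₁ →ₗ[ℂ] T} (hD : ∀ a, D (f a) = f (D₁ a)) (hb : Function.Bijective f)
    (h0 : ∀ a, D (σ a) = -σ (D a)) (hσ : ∀ a, σ (f a) = f (σ₁ a)) : chi D₁ σ₁ = chi D σ :=
  chi_of_bij _ (bij_of_bij hD hb)
    (Ch.of_anti fun a => hb.1 (by rw [← hD, ← hσ, h0, map_neg, ← hσ, hD])) (Ch.of_anti h0)
    fun a _ => hσ a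

/-- an acyclic differential module -/
theorem of_acyclic (h : ∀ z, D z = 0 → ∃ y, z = D y) : Fd D ∧ chi D σ = 0 := by
  haveI : Subsingleton (Coh D) := ⟨fun x y => by
    obtain ⟨z, hz, rfl⟩ := Coh.ind x
    obtain ⟨w, hw, rfl⟩ := Coh.ind y
    rw [Coh.mk_eq_zero.2 (h z hz), Coh.mk_eq_zero.2 (h w hw)]⟩
  refine ⟨inferInstance, ?_⟩
  unfold chi
  split_ifs with c
  · rw [Subsingleton.elim (Coh.map σ c) 0, map_zero]
  · rfl

theorem of_subsingleton [Subsingleton T] : Fd D ∧ chi D σ = 0 :=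
  of_acyclic fun z _ => ⟨0, Subsingleton.elim _ _⟩

/-- componentwise action on a finite power -/
def pw (ι : Type*) (D : Module.End ℂ T) : Module.End ℂ (ι → T) := D.compLeft ι

theorem pw_apply {ι : Type*} (D : Module.End ℂ T) (v : ι → T) (k : ι) : pw ι D v k = D (v k) := rfl

theorem chi_fin (hD : ∀ a, D (D a) = 0) (h0 : Fd D) (hσ : ∀ a, D (σ a) = -σ (D a)) (n : ℕ) :
    Fd (pw (Fin n) D) ∧ chi (pw (Fin n) D) (pw (Fin n) σ) = n * chi D σ := by
  induction n with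
  | zero => simpa using of_subsingleton (D := pw (Fin 0) D) (σ := pw (Fin 0) σ)
  | succ n ih =>
    let i : T →ₗ[ℂ] (Fin (n + 1) → T) := LinearMap.single ℂ (fun _ => T) 0
    let p : (Fin (n + 1) → T) →ₗ[ℂ] (Fin n → T) := LinearMap.funLeft ℂ T Fin.succ
    have i0 : ∀ a, i a 0 = a := fun a => by simp [i]
    have i1 : ∀ a (k : Fin n), i a k.succ = 0 := fun a k => by simp [i]
    have hs : ∀ (E : Module.End ℂ T) a, pw (Fin (n + 1)) E (i a) = i (E a) := fun E a => by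
      funext k
      rw [pw_apply]
      refine Fin.cases ?_ (fun k => ?_) k
      · rw [i0, i0]
      · rw [i1, i1, map_zero]
    have h : SES D (pw (Fin (n + 1)) D) (pw (Fin n) D) i p := by
      refine ⟨fun a => funext fun k => hD _, hs D, fun _ => rfl,
        fun a b h => by rw [← i0 a, h, i0], fun v => ⟨Fin.cons 0 v, rfl⟩,
        fun a => ⟨fun h => ⟨a 0, funext fun k => ?_⟩, ?_⟩⟩
      · refine Fin.cases ?_ (fun k => ?_) k
        · rw [i0]
        · rw [i1]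
          exact congrFun h k
      · rintro ⟨b, rfl⟩
        exact funext fun k => i1 b k
    refine ⟨fd_mid h h0 ih.1, ?_⟩
    rw [chi_ses (σ₂ := pw (Fin n) σ) h h0 ih.1 (fun a => funext fun k => hσ _) (hs σ)
      (fun _ => rfl), ih.2]
    push_cast
    ring

/-- the Euler characteristic of a finite power -/
theorem chi_pw (ι : Type*) [Fintype ι] (hD : ∀ a, D (D a) = 0) (h0 : Fd D)
    (hσ : ∀ a, D (σ a) = -σ (D a)) :
    Fd (pw ι D) ∧ chi (pw ι D) (pw ι σ) = Fintype.card ι * chi D σ := by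
  obtain ⟨h1, h2⟩ := chi_fin hD h0 hσ (Fintype.card ι)
  let e := Fintype.equivFin ι
  have hb : Function.Bijective (LinearMap.funLeft ℂ T e) := (LinearEquiv.funCongrLeft ℂ T e).bijective
  have c1 : ∀ (E : Module.End ℂ T) a, pw ι E (LinearMap.funLeft ℂ T e a) =
      LinearMap.funLeft ℂ T e (pw _ E a) := fun _ _ => rfl
  exact ⟨(fd_iso (c1 D) hb).1 h1, by
    rw [← h2, chi_iso (c1 D) hb (fun a => funext fun k => hσ _) (c1 σ)]⟩

end Vale.Agent.P269HS
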