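import Vale.Agent.P269HS.Main
import Vale.Agent.P269HT70.Main
import Vale.Agent.P269HC.Ctr
import Vale.Agent.P269CI.Loc
import Vale.Agent.P269CL.Ptw
import Vale.Agent.P269HA.Xi
import Vale.Agent.P269HI.Fin
import Vale.Agent.P269HD.Bh

/-!
# P269, row H5 and block H
-/

namespace Vale.Agent.P269HS

/-- **H5** -/
theorem bun : P269HP.BUN :=
  bun_of P269HT70.tcv (P269HC.ctr_row P269HT70.tcv) P269CI.dtl (P269CL.ptw P269CI.loc) P269HA.xi

/-- **block H** -/
theorem bh : P269Z.BH := P269HD.bh_of bun P269HI.deg_row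

end Vale.Agent.P269HS
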