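import Vale.Agent.P269HS.Sq
import Vale.Agent.P299.H835.IX.Fock

/-!
# The exterior algebra with coefficients in a module
-/

noncomputable section

namespace Vale.Agent.P269HS

open Vale.Agent.P299.IX Vale.Agent.P299.IX.Fock
open scoped Matrix

variable {N : ℕ} (R : Type*) {B : Type*} [CommRing R] [Algebra ℂ R] [AddCommGroup B] [Module R B]
  [Module ℂ B] [IsScalarTower ℂ R B]

/-- the action of a complex matrix -/
def act (A : FM N) : Module.End R (FI N → B) where
  toFun w I := ∑ J, A I J • w J
  map_add' u v := funext fun I => by simp only [Pi.add_apply, smul_add, Finset.sum_add_distrib]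
  map_smul' c u := funext fun I => by
    simp only [Pi.smul_apply, RingHom.id_apply, Finset.smul_sum]
    exact Finset.sum_congr rfl fun J _ => smul_comm _ _ _

theorem act_apply (A : FM N) (w : FI N → B) (I : FI N) : act R A w I = ∑ J, A I J • w J := rfl

theorem act_mul (A A' : FM N) : (act R (A * A') : Module.End R (FI N → B)) = act R A * act R A' :=
  LinearMap.ext fun w => funext fun I => by
    simp only [Module.End.mul_apply, act_apply, Matrix.mul_apply, Finset.sum_smul, Finset.smul_sum,
      smul_smul]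
    exact Finset.sum_comm

theorem act_add (A A' : FM N) : (act R (A + A') : Module.End R (FI N → B)) = act R A + act R A' :=
  LinearMap.ext fun w => funext fun I => by
    simp only [LinearMap.add_apply, Pi.add_apply, act_apply, Matrix.add_apply, add_smul,
      Finset.sum_add_distrib]

theorem act_neg (A : FM N) : (act R (-A) : Module.End R (FI N → B)) = -act R A :=
  LinearMap.ext fun w => funext fun I => by
    simp only [LinearMap.neg_apply, Pi.neg_apply, act_apply, Matrix.neg_apply, neg_smul,
      Finset.sum_neg_distrib]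

theorem act_zero : (act R (0 : FM N) : Module.End R (FI N → B)) = 0 :=
  LinearMap.ext fun w => funext fun I => by simp [act_apply]

theorem act_diag (c : FI N → ℂ) (w : FI N → B) (I : FI N) :
    act R (Matrix.diagonal c) w I = c I • w I := by
  rw [act_apply, Finset.sum_eq_single I, Matrix.diagonal_apply_eq]
  · intro J _ h
    rw [Matrix.diagonal_apply_ne _ h.symm, zero_smul]
  · exact fun h => (h (Finset.mem_univ _)).elim

theorem act_one : (act R (1 : FM N) : Module.End R (FI N → B)) = 1 :=
  LinearMap.ext fun w => funext fun I => by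
    rw [← Matrix.diagonal_one, act_diag, one_smul, Module.End.one_apply]

theorem act_sum {ι : Type*} (s : Finset ι) (A : ι → FM N) :
    (act R (∑ i ∈ s, A i) : Module.End R (FI N → B)) = ∑ i ∈ s, act R (A i) := by
  classical
  induction s using Finset.induction_on with
  | empty => exact act_zero R
  | insert a s ha ih => rw [Finset.sum_insert ha, Finset.sum_insert ha, act_add, ih]

variable {R}

/-- exterior multiplication -/
def E (a : Fin N → R) : Module.End R (FI N → B) := ∑ i, a i • act R (eps i)

/-- contraction -/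
def J (ξ : Fin N → R) : Module.End R (FI N → B) := ∑ i, ξ i • act R (iot i)

theorem anti_sum {a b : Fin N → R} {S T : Fin N → Module.End R B} {g : Fin N → Fin N → R}
    (h : ∀ i j, S i * T j + T j * S i = g i j • 1) :
    (∑ i, a i • S i) * (∑ j, b j • T j) + (∑ j, b j • T j) * (∑ i, a i • S i) =
      (∑ i, ∑ j, a i * b j * g i j) • 1 := by
  rw [Finset.sum_mul_sum, Finset.sum_mul_sum, Finset.sum_comm (f := fun j i => b j • T j * a i • S i),
    ← Finset.sum_add_distrib, Finset.sum_smul]
  refine Finset.sum_congr rfl fun i _ => ?_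
  rw [← Finset.sum_add_distrib, Finset.sum_smul]
  refine Finset.sum_congr rfl fun j _ => ?_
  rw [smul_mul_smul_comm, smul_mul_smul_comm, mul_comm (b j), ← smul_add, h, smul_smul]

theorem car_act (i j : Fin N) : (act R (iot i) * act R (eps j) + act R (eps j) * act R (iot i) :
    Module.End R (FI N → B)) = (if i = j then (1 : R) else 0) • 1 := by
  rw [← act_mul, ← act_mul, ← act_add, car]
  split_ifs
  · rw [act_one, one_smul]
  · rw [act_zero, zero_smul]

theorem J_E (ξ a : Fin N → R) (w : FI N → B) :
    J ξ (E a w) = (∑ i, ξ i * a i) • w - E a (J ξ w) := by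
  have h := LinearMap.congr_fun (anti_sum (a := ξ) (b := a) (car_act (R := R) (B := B))) w
  simp only [mul_ite, mul_one, mul_zero, Finset.sum_ite_eq, Finset.mem_univ, if_true] at h
  exact eq_sub_of_add_eq h

theorem E_E (a b : Fin N → R) (w : FI N → B) : E a (E b w) = -E b (E a w) := by
  have h := LinearMap.congr_fun (anti_sum (a := a) (b := b) (g := fun _ _ => 0)
    (S := fun i => act R (eps i)) (T := fun i => act R (eps i)) (B := FI N → B) fun i j => by
      rw [← act_mul, ← act_mul, ← act_add, eps_eps, neg_add_cancel, act_zero, zero_smul]) w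
  simp only [mul_zero, Finset.sum_const_zero, zero_smul] at h
  exact eq_neg_of_add_eq_zero_left h

theorem J_J (a b : Fin N → R) (w : FI N → B) : J a (J b w) = -J b (J a w) := by
  have h := LinearMap.congr_fun (anti_sum (a := a) (b := b) (g := fun _ _ => 0)
    (S := fun i => act R (iot i)) (T := fun i => act R (iot i)) (B := FI N → B) fun i j => by
      rw [← act_mul, ← act_mul, ← act_add, iot_iot, neg_add_cancel, act_zero, zero_smul]) w
  simp only [mul_zero, Finset.sum_const_zero, zero_smul] at h
  exact eq_neg_of_add_eq_zero_left h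

omit [Algebra ℂ R] [IsScalarTower ℂ R B] [Module R B] in
theorem eq_zero_of_neg {w : B} (h : w = -w) : w = 0 := by
  rwa [eq_neg_iff_add_eq_zero, ← two_smul ℂ, smul_eq_zero_iff_right two_ne_zero] at h

theorem E_sq (a : Fin N → R) (w : FI N → B) : E a (E a w) = 0 := eq_zero_of_neg (E_E a a w)

theorem J_sq (a : Fin N → R) (w : FI N → B) : J a (J a w) = 0 := eq_zero_of_neg (J_J a a w)

theorem E_apply (a : Fin N → R) (w : FI N → B) : E a w = ∑ i, act R (eps i) (a i • w) := by
  simp only [E, LinearMap.sum_apply, LinearMap.smul_apply, map_smul]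

theorem J_apply (a : Fin N → R) (w : FI N → B) : J a w = ∑ i, act R (iot i) (a i • w) := by
  simp only [J, LinearMap.sum_apply, LinearMap.smul_apply, map_smul]

theorem E_single (i : Fin N) : (E (Pi.single i (1 : R)) : Module.End R (FI N → B)) =
    act R (eps i) := by
  simp [E, Pi.single_apply]

theorem J_single (i : Fin N) : (J (Pi.single i (1 : R)) : Module.End R (FI N → B)) =
    act R (iot i) := by
  simp [J, Pi.single_apply]

/-- the elements of degree `p` with components in `A` -/
def Wp (N : ℕ) (A : Submodule ℂ B) (p : ℕ) : Submodule ℂ (FI N → B) where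
  carrier := {w | ∀ I, w I ∈ A ∧ (I.card ≠ p → w I = 0)}
  add_mem' := fun {u v} hu hv I => ⟨A.add_mem (hu I).1 (hv I).1, fun h => by
    rw [Pi.add_apply, (hu I).2 h, (hv I).2 h, add_zero]⟩
  zero_mem' := fun _ => ⟨A.zero_mem, fun _ => rfl⟩
  smul_mem' := fun c u hu I => ⟨A.smul_mem c (hu I).1, fun h => by
    rw [Pi.smul_apply, (hu I).2 h, smul_zero]⟩

variable {A A' : Submodule ℂ B} {p : ℕ} {w : FI N → B}

theorem eps_card {l : Fin N} {I K : FI N} (h : eps l I K ≠ 0) : I.card = K.card + 1 := by
  rw [eps, Matrix.of_apply] at h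
  split_ifs at h with h1
  · rw [h1.2, Finset.card_insert_of_notMem h1.1]
  · exact (h rfl).elim

theorem act_mem (M : FM N) (h : w ∈ Wp N A p) (I : FI N) : act R M w I ∈ A := by
  rw [act_apply]
  exact A.sum_mem fun K _ => A.smul_mem _ (h K).1

theorem act_eq_zero {M : FM N} (h : w ∈ Wp N A p) {I : FI N}
    (hI : ∀ K, M I K ≠ 0 → K.card ≠ p) : act R M w I = 0 := by
  rw [act_apply]
  refine Finset.sum_eq_zero fun K _ => ?_
  by_cases e : M I K = 0
  · rw [e, zero_smul]
  · rw [(h K).2 (hI K e), smul_zero]

theorem eps_W (l : Fin N) (h : w ∈ Wp N A p) : act R (eps l) w ∈ Wp N A (p + 1) := fun I =>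
  ⟨act_mem _ h I, fun hI => act_eq_zero h fun K e => by have := eps_card e; omega⟩

theorem iot_W (l : Fin N) (h : w ∈ Wp N A (p + 1)) : act R (iot l) w ∈ Wp N A p := fun I =>
  ⟨act_mem _ h I, fun hI => act_eq_zero h fun K e => by
    have := eps_card (l := l) (I := K) (K := I) e; omega⟩

theorem iot_W0 (l : Fin N) (h : w ∈ Wp N A 0) : act R (iot l) w = 0 := funext fun I =>
  act_eq_zero h fun K e => by have := eps_card (l := l) (I := K) (K := I) e; omega

theorem smul_W {φ : R} (hφ : ∀ v ∈ A, φ • v ∈ A') (h : w ∈ Wp N A p) : φ • w ∈ Wp N A' p :=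
  fun I => ⟨hφ _ (h I).1, fun hI => by rw [Pi.smul_apply, (h I).2 hI, smul_zero]⟩

theorem E_W {a : Fin N → R} (ha : ∀ i, ∀ v ∈ A, a i • v ∈ A') (h : w ∈ Wp N A p) :
    E a w ∈ Wp N A' (p + 1) := by
  rw [E_apply]
  exact Submodule.sum_mem _ fun i _ => eps_W i (smul_W (ha i) h)

theorem J_W {a : Fin N → R} (ha : ∀ i, ∀ v ∈ A, a i • v ∈ A') (h : w ∈ Wp N A (p + 1)) :
    J a w ∈ Wp N A' p := by
  rw [J_apply]
  exact Submodule.sum_mem _ fun i _ => iot_W i (smul_W (ha i) h)

theorem J_W0 (a : Fin N → R) (h : w ∈ Wp N A 0) : J a w = 0 := by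
  simp only [J, LinearMap.sum_apply, LinearMap.smul_apply, iot_W0 _ h, smul_zero,
    Finset.sum_const_zero]

theorem num_W (h : w ∈ Wp N A p) : ∑ l, act R (eps l) (act R (iot l) w) = (p : ℂ) • w := by
  have e : (∑ l, eps l * iot l : FM N) = Matrix.diagonal fun I => (I.card : ℂ) :=
    ext_mulVec fun a => funext fun I => by
      rw [Matrix.sum_mulVec, Finset.sum_apply, Matrix.mulVec_diagonal]
      simp only [eps_iot_mulVec, Finset.sum_ite_mem, Finset.univ_inter, Finset.sum_const,
        nsmul_eq_mul]
  have e2 := LinearMap.congr_fun (congrArg (act R (B := B)) e) w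
  simp only [act_sum, act_mul, LinearMap.sum_apply, Module.End.mul_apply] at e2
  rw [e2]
  funext I
  rw [act_diag, Pi.smul_apply]
  by_cases k : I.card = p
  · rw [k]
  · rw [(h I).2 k, smul_zero, smul_zero]

theorem W_big (hp : N < p) (h : w ∈ Wp N A p) : w = 0 := funext fun I =>
  (h I).2 (by have := Finset.card_le_univ I; rw [Fintype.card_fin] at this; omega)

theorem pw_W {D : Module.End ℂ B} (hD : ∀ v ∈ A, D v ∈ A') (h : w ∈ Wp N A p) :
    pw (FI N) D w ∈ Wp N A' p :=
  fun I => ⟨hD _ (h I).1, fun hI => by rw [pw_apply, (h I).2 hI, map_zero]⟩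

theorem pw_act (D : Module.End ℂ B) (M : FM N) (w : FI N → B) :
    pw (FI N) D (act R M w) = act R M (pw (FI N) D w) := funext fun I => by
  simp only [pw_apply, act_apply, map_sum, map_smul]

theorem pw_smul {D D' : Module.End ℂ B} {φ : R} (hφ : ∀ v ∈ A, D' (φ • v) = φ • D v)
    (h : w ∈ Wp N A p) : pw (FI N) D' (φ • w) = φ • pw (FI N) D w :=
  funext fun I => hφ _ (h I).1

theorem pw_E {D D' : Module.End ℂ B} {a : Fin N → R} (ha : ∀ i, ∀ v ∈ A, D' (a i • v) = a i • D v)
    (h : w ∈ Wp N A p) : pw (FI N) D' (E a w) = E a (pw (FI N) D w) := by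
  simp only [E_apply, map_sum, pw_act, pw_smul (ha _) h]

theorem pw_J {D D' : Module.End ℂ B} {a : Fin N → R} (ha : ∀ i, ∀ v ∈ A, D' (a i • v) = a i • D v)
    (h : w ∈ Wp N A p) : pw (FI N) D' (J a w) = J a (pw (FI N) D w) := by
  simp only [J_apply, map_sum, pw_act, pw_smul (ha _) h]

/-- the universal property -/
theorem ex_phi (T : Fin N → Module.End R B) (hT : ∀ i j, T i * T j = -(T j * T i)) :
    ∃ Φ : (FI N → B) →ₗ[R] B, (∀ l w, Φ (act R (eps l) w) = T l (Φ w)) ∧
      ∀ (A : Submodule ℂ B), ∀ w ∈ Wp N A 0, Φ w = w ∅ := by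
  let P : FI N → Module.End R B := fun I => ((I.sort (· ≤ ·)).map T).prod
  let Q : Fk N →ₗ[ℂ] Module.End R B := Fintype.linearCombination ℂ P
  have hQ : ∀ I, Q (ev I) = P I := fun I => by
    simp [Q, ev, Fintype.linearCombination_apply_single]
  have hi : ∀ (i : Fin N) (I : FI N), (∀ j ∈ I, i < j) → Q (ev (insert i I)) = T i * Q (ev I) := by
    intro i I h
    rw [hQ, hQ]
    simp only [P]
    rw [Finset.sort_insert (r := (· ≤ ·)) (fun b hb => (h b hb).le)
      (fun h' => lt_irrefl i (h i h')), List.map_cons, List.prod_cons]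
  have key : ∀ (I : FI N) l, Q (eps l *ᵥ ev I) = T l * Q (ev I) := by
    intro I
    induction I using Finset.induction_on_min with
    | empty => exact fun l => by rw [eps_ev_min (by simp), hi _ _ (by simp)]
    | insert i I h ih =>
      intro l
      rcases lt_trichotomy l i with k | k | k
      · have hl : ∀ j ∈ insert i I, l < j := fun j hj =>
          (Finset.mem_insert.1 hj).elim (fun e => e ▸ k) fun e => k.trans (h j e)
        rw [eps_ev_min hl, hi _ _ hl]
      · subst k
        rw [eps_ev_of_mem (Finset.mem_insert_self l I), map_zero, hi _ _ h, ← mul_assoc,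
          eq_zero_of_neg (hT l l), zero_mul]
      · have h1 : eps l *ᵥ ev (insert i I) = -(eps i *ᵥ (eps l *ᵥ ev I)) := by
          rw [← eps_ev_min h, Matrix.mulVec_mulVec, eps_eps, Matrix.neg_mulVec,
            Matrix.mulVec_mulVec]
        have h2 : Q (eps i *ᵥ (eps l *ᵥ ev I)) = T i * Q (eps l *ᵥ ev I) := by
          by_cases hl : l ∈ I
          · rw [eps_ev_of_mem hl]
            simp
          · have hi' : ∀ j ∈ insert l I, i < j := fun j hj =>
              (Finset.mem_insert.1 hj).elim (fun e => e ▸ k) (h j)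
            rw [eps_ev_of_notMem hl, Matrix.mulVec_smul, map_smul, map_smul, eps_ev_min hi',
              hi _ _ hi', mul_smul_comm]
        rw [h1, map_neg, h2, ih l, hi _ _ h, ← mul_assoc, ← mul_assoc, hT i l, neg_mul, neg_neg]
  refine ⟨∑ I, P I ∘ₗ LinearMap.proj I, fun l w => ?_, fun A w hw => ?_⟩
  · simp only [LinearMap.sum_apply, LinearMap.comp_apply, LinearMap.proj_apply, act_apply, map_sum,
      LinearMap.map_smul_of_tower]
    rw [Finset.sum_comm]
    refine Finset.sum_congr rfl fun K _ => ?_
    have := LinearMap.congr_fun (key K l) (w K)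
    rw [hQ, Module.End.mul_apply, Fintype.linearCombination_apply, LinearMap.sum_apply] at this
    rw [← this]
    exact Finset.sum_congr rfl fun I _ => by rw [mulVec_ev, LinearMap.smul_apply]
  · rw [LinearMap.sum_apply, Finset.sum_eq_single ∅]
    · simp [P]
    · intro I _ hI
      rw [LinearMap.comp_apply, LinearMap.proj_apply, (hw I).2 (Finset.card_ne_zero.2
        (Finset.nonempty_iff_ne_empty.2 hI)), map_zero]
    · exact fun h => (h (Finset.mem_univ _)).elim

end Vale.Agent.P269HS
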