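import Vale.Agent.P269HS.Ops

/-!
# P269, row H5: the bundle sequences on a complete intersection
-/

open scoped Manifold ContDiff Topology Matrix
open Filter
open Vale.Agent.P272.K Vale.Agent.P299.IX Vale.Agent.P299.IX.Fock Vale.Agent.P281Z.Hg
  Vale.Agent.P275MC Vale.Agent.P275FM
open Vale.Agent.P269H (CI)
open Vale.Agent.P269HK Vale.Agent.P269HP

noncomputable section

namespace Vale.Agent.P269HS

variable {r c : ℕ} {M : Type} [TopologicalSpace M] [ChartedSpace (Cm r) M]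

/-- a family indexed by natural numbers -/
def e0 (f : Fin c → M → Fin (r + c + 1) → ℂ) (j : ℕ) (i : Fin (r + c + 1)) : RR r M :=
  fun p => if h : j < c then f ⟨j, h⟩ p.1.2 i else 0

theorem e0_eq (f : Fin c → M → Fin (r + c + 1) → ℂ) {j : ℕ} (h : j < c) (i : Fin (r + c + 1)) :
    e0 f j i = fun p => f ⟨j, h⟩ p.1.2 i := funext fun _ => dif_pos h

theorem dN_eq (X : CI r c M) {j : ℕ} (h : j < c) : dN X j = X.dg ⟨j, h⟩ := dif_pos h

/-- the frames -/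
structure XD (X : CI r c M) (ξ : Fin c → M → Fin (r + c + 1) → ℂ) : Prop where
  ha : ∀ m i, (hc X).Hh ((X.dg m : ℤ) - 1) fun y => aa X m y i
  xa : ∀ m y, ∑ i, (hc X).x y i * aa X m y i = 0
  hy : ∀ i, (hc X).Hs (-1) fun y => yy (hc X) y i
  xy : ∀ y, ∑ i, (hc X).x y i * yy (hc X) y i = 1
  hξ : ∀ m i, (hc X).Hs (1 - (X.dg m : ℤ)) fun y => ξ m y i
  ξa : ∀ m m' y, ∑ i, ξ m y i * aa X m' y i = if m = m' then 1 else 0
  yξ : ∀ m y, ∑ i, yy (hc X) y i * ξ m y i = 0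

variable {X : CI r c M} {ξ : Fin c → M → Fin (r + c + 1) → ℂ} {j s t : ℕ} {v : BB r M}

theorem XD.ha' (h : XD X ξ) (hj : j < c) (i : Fin (r + c + 1)) (e : t + dN X j = s + 1)
    (hv : v ∈ A0 (hc X) s) : e0 (aa X) j i • v ∈ A0 (hc X) t := by
  rw [dN_eq X hj] at e
  rw [e0_eq _ hj]
  exact mul_A0 (F := fun y => aa X ⟨j, hj⟩ y i) (h.ha ⟨j, hj⟩ i).hs (by omega) hv

theorem XD.hξ' (h : XD X ξ) (hj : j < c) (i : Fin (r + c + 1)) (e : t + 1 = s + dN X j)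
    (hv : v ∈ A0 (hc X) s) : e0 ξ j i • v ∈ A0 (hc X) t := by
  rw [dN_eq X hj] at e
  rw [e0_eq _ hj]
  exact mul_A0 (F := fun y => ξ ⟨j, hj⟩ y i) (h.hξ ⟨j, hj⟩ i) (by omega) hv

theorem XD.ξa' (h : XD X ξ) (hj : j < c) (hs : s < c) :
    ∑ i, e0 ξ j i * e0 (aa X) s i = if j = s then 1 else 0 := funext fun p => by
  simp only [e0_eq _ hj, e0_eq _ hs, Finset.sum_apply, Pi.mul_apply, h.ξa, Fin.mk.injEq]
  split_ifs <;> rfl

theorem XD.xy' (h : XD X ξ) : ∑ i, (fun p : Pt r M => (hc X).x p.1.2 i) *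
    (fun p : Pt r M => yy (hc X) p.1.2 i) = 1 := funext fun p => by
  simp only [Finset.sum_apply, Pi.mul_apply, h.xy, Pi.one_apply]

theorem XD.xa' (h : XD X ξ) (hj : j < c) :
    ∑ i, (fun p : Pt r M => (hc X).x p.1.2 i) * e0 (aa X) j i = 0 := funext fun p => by
  simp only [e0_eq _ hj, Finset.sum_apply, Pi.mul_apply, h.xa, Pi.zero_apply]

variable [IsManifold 𝓘(ℂ, Cm r) ω M]

theorem XD.Da' (h : XD X ξ) (hj : j < c) (i : Fin (r + c + 1)) (e : t + dN X j = s + 1)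
    (hv : v ∈ A0 (hc X) s) :
    DD (hc X) t (e0 (aa X) j i • v) = e0 (aa X) j i • DD (hc X) s v := by
  rw [dN_eq X hj] at e
  rw [e0_eq _ hj]
  exact DD_mul (F := fun y => aa X ⟨j, hj⟩ y i) (h.ha ⟨j, hj⟩ i) (by omega) hv.1

/-- the data of the recursion -/
def XD.dat (h : XD X ξ) : Dat (RR r M) (BB r M) (r + c + 1) c (dN X) where
  A := A0 (hc X)
  D t := DD (hc X) t
  σ := σσ r M
  a := e0 (aa X)
  ξ := e0 ξ
  x i p := (hc X).x p.1.2 i
  y i p := yy (hc X) p.1.2 i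
  DA _ _ hv := ⟨DD_mem hv.1, DD_PP hv.1 hv.2⟩
  σA _ _ hv := ⟨σσ_mem hv.1, σσ_PP hv.2⟩
  DD _ _ hv := DD_DD hv.1
  Dσ _ _ hv := DD_σσ hv.1
  σR := σσ_smul
  ha _ hj i _ _ e _ := h.ha' hj i e
  Da _ hj i _ _ e _ := h.Da' hj i e
  hξ _ hj i _ _ e _ := h.hξ' hj i e
  hx i s t e v := mul_A0 (F := fun y => (hc X).x y i) (HC.hh_x i).hs (by omega)
  Dx i s t e v hv := DD_mul (F := fun y => (hc X).x y i) (HC.hh_x i) (by omega) hv.1
  hy i s t e v := mul_A0 (F := fun y => yy (hc X) y i) (h.hy i) (by omega)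
  ξa _ hj _ := h.ξa' hj
  xy := h.xy'
  xa _ := h.xa'

theorem XD.Pi_apply (h : XD X ξ) (i k : Fin (r + c + 1)) (p : Pt r M) : h.dat.Pi i k p =
    (if k = i then 1 else 0) - yy (hc X) p.1.2 i * (hc X).x p.1.2 k -
      ∑ m, aa X m p.1.2 i * ξ m p.1.2 k := by
  rw [Dat.Pi, Finset.sum_range, Pi.sub_apply, Pi.sub_apply, Finset.sum_apply, Pi.single_apply]
  refine congrArg₂ _ (congrArg₂ _ (by split_ifs <;> rfl) rfl) (Finset.sum_congr rfl fun m _ => ?_)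
  show e0 (aa X) m i p * e0 ξ m k p = _
  rw [e0_eq _ m.2, e0_eq _ m.2]

theorem XD.sum_Pi (h : XD X ξ) (b : Fin (r + c + 1) → ℂ) (i : Fin (r + c + 1)) (p : Pt r M) :
    ∑ k, b k * h.dat.Pi i k p = b i - yy (hc X) p.1.2 i * ∑ k, (hc X).x p.1.2 k * b k -
      ∑ m, aa X m p.1.2 i * ∑ k, ξ m p.1.2 k * b k := by
  simp only [h.Pi_apply, mul_sub, Finset.sum_sub_distrib, mul_ite, mul_one, mul_zero,
    Finset.sum_ite_eq', Finset.mem_univ, if_true, Finset.mul_sum]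
  rw [Finset.sum_comm]
  simp only [mul_comm (b _), mul_assoc]

theorem XD.ext (h : XD X ξ) (tcv : TCV) (ct : CTR) (dtl : DTL) (ptw : PTW) :
    ∃ E : h.dat.Ext, E.A = AA (hc X) ∧ E.P = PP r M := by
  have h1 : ∀ i (p : Pt r M), ∃ t : Fin r → ℂ,
      ∀ k, ∑ j, t j * Θ (hc X) p.1.1 p.1.2 k j = h.dat.Pi i k p := fun i p =>
    (ptw r c M X _ _ p.2).2.2.2 _ (by
      simp only [h.sum_Pi, h.xy, mul_comm (ξ _ _ _), h.yξ, mul_one, mul_zero, sub_self,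
        Finset.sum_const_zero]) fun m => by
      simp only [h.sum_Pi, h.xa, h.ξa, mul_ite, mul_one, mul_zero, Finset.sum_ite_eq',
        Finset.mem_univ, if_true, sub_zero, sub_self]
  choose ζ hζ using h1
  exact ⟨{
    A := AA (hc X)
    P := PP r M
    T := TT (hc X)
    I := fun i => opm fun p => par * ctr (ζ i p)
    g := gg (hc X)
    hA := fun _ _ => Iff.rfl
    TT := TT_TT
    TA := fun i _ _ => TT_AA tcv i
    TP := fun i _ _ => TT_PP i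
    DT := fun i _ _ => DD_TT tcv dtl i
    gT := gg_TT
    σT := σσ_TT
    yT := sum_TT fun p => (ptw r c M X _ _ p.2).1
    aT := fun j hj => sum_TT fun p l => by
      simp only [XD.dat, e0_eq _ hj]
      exact (ptw r c M X _ _ p.2).2.1 _ l
    IT := fun i k v => by
      rw [ctr_TT, funext fun p => hζ i p k]
    I0 := fun i v hv => funext fun p => by
      rw [opm_apply, ← Matrix.mulVec_mulVec, ctr_zero _ (mem_PP.1 hv p), Matrix.mulVec_zero]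
      rfl
    span := fun _ _ _ => span_TT ct fun e y he => (ptw r c M X e y he).2.2.1 }, rfl, rfl⟩

theorem XD.base (h : XD X ξ) (hf : ∀ t, FdT X t) (p n : ℕ) :
    FdQ (h.dat.W p n) ⊥ (h.dat.DW p n) ∧ chQ (h.dat.W p n) ⊥ (h.dat.DW p n) h.dat.σW =
      (r + c + 1).choose p * chiT X (n + p) :=
  Dat.base (G := h.dat) (ρ := ρρ (hc X) (n + p)) ρρ_inj (fun _ => ρρ_range) DD_ρρ σσ_ρρ (hf _)

theorem XD.o_eq [T2Space M] [CompactSpace M] (h : XD X ξ) (E : h.dat.Ext)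
    (hA : E.A = AA (hc X)) (hP : E.P = PP r M) {w : Rw r M (Matrix (Fin r) (Fin r) ℂ)}
    {ι : Type} [Fintype ι] {φ : ι → SF r M} {p q : ι → ℕ} (hw : IsKahler w)
    (hb : P269HD.Bas (dd r M) φ) (hφ : ∀ a, P269HD.Pure (p a) (q a) (φ a)) (k : ℕ) :
    h.dat.o k = ∑ a with p a = k, (-1 : ℂ) ^ q a := by
  obtain ⟨i, h1, h2, h3, h4⟩ := E.model k
  rw [hA, hP] at h2
  have h5 : ∀ t, val r M ((lv r M ∘ₗ i) t) = i t := fun t => by
    obtain ⟨u, hu⟩ := mem_AA0.1 ((h2 _).2 ⟨t, rfl⟩).1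
    rw [LinearMap.comp_apply, ← hu, lv_val]
  have hσ := Ch.of_anti (Dat.okZ (G := h.dat) (p := k)).anti
  have h6 := (P269HD.Bas.chi hw hb hφ k hσ (i := lv r M ∘ₗ i)
    (fun s t e => h1 (by rw [← h5, ← h5, e]))
    (fun t => val_inj (by rw [h5, ← h3, ← DD_zero (H := hc X), h5]; rfl))
    (fun u => ⟨fun hu => ((h2 _).1 ⟨mem_AA0.2 ⟨u, rfl⟩, val_PP.2 hu⟩).imp fun t e => val_inj (by
      rw [h5, e]), fun ⟨t, e⟩ => val_PP.1 (by rw [← e, h5]; exact ((h2 _).2 ⟨t, rfl⟩).2)⟩)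
    (s := (-1) ^ k) fun t => val_inj (by rw [h5, h4, map_smul, val_pr, h5]; rfl)).2
  rw [Dat.o, chQ, chi_eq hσ, h6, ← mul_pow, neg_mul_neg, one_mul, one_pow, one_mul]

/-- **H5** -/
theorem bun_of (tcv : TCV) (ct : CTR) (dtl : DTL) (ptw : PTW) (xi : XI) : BUN := by
  intro r c M _ _ _ _ _ _ X w ι _ φ p q hw hb hφ hf
  obtain ⟨k1, k2, k3, k4, ξ, k5, k6, k7⟩ := xi r c M X
  have h : XD X ξ := ⟨k1, k2, k3, k4, k5, k6, k7⟩
  obtain ⟨E, hA, hP⟩ := h.ext tcv ct dtl ptw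
  have h0 := fun p n => (h.base hf p n).1
  have ho := h.o_eq E hA hP hw hb hφ
  refine ⟨h.dat.e, fun k t => ?_, fun j t => Dat.e1 _ _, fun j k t => ?_,
    ⟨_, fun k hk t => Dat.ez hk t⟩, by rw [Dat.o0, ho], fun k => by rw [Dat.o1 h0, ho, ho]⟩
  · rw [Dat.e, Dat.F_zero, (h.base hf k t).2]
  · rw [Dat.e2 h0 j.2, dN_val]

end Vale.Agent.P269HS
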