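import Vale.Agent.P269HS.Spec

/-!
# P269, row H5: matrix identities
-/

open scoped Matrix
open Vale.Agent.P299.IX Vale.Agent.P299.IX.Fock Vale.Agent.P281Z.Hg Vale.Agent.P275FM

noncomputable section

namespace Vale.Agent.P269HS

variable {n k : ℕ} (θ θ' : Fin n → ℂ) {v : Fo n}

/-- exterior multiplication by a form of type `(1,0)` -/
def eh : Fm n := ∑ j, θ j • eps (hl j)

theorem anti_eh {A : Fm n} (h : ∀ j, A * eps (hl j) = -(eps (hl j) * A)) :
    A * eh θ = -(eh θ * A) := by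
  simp only [eh, Finset.mul_sum, Finset.sum_mul, Matrix.mul_smul, Matrix.smul_mul, h, smul_neg,
    Finset.sum_neg_distrib]

theorem eps_eh (l) : eps l * eh θ = -(eh θ * eps l) := anti_eh θ fun _ => eps_eps _ _

theorem par_eh : par * eh θ = -(eh θ * par) := anti_eh θ fun _ => par_eps _

theorem eh_eh : eh θ * eh θ' = -(eh θ' * eh θ) :=
  anti_eh θ' fun _ => by rw [eps_eh, neg_neg]

theorem par_ctr : par * ctr θ = -(ctr θ * par) := by
  simp only [ctr, Finset.mul_sum, Finset.sum_mul, Matrix.mul_smul, Matrix.smul_mul, par_iot,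
    smul_neg, Finset.sum_neg_distrib]

theorem iot_eh (j) : iot (hl j) * eh θ = θ j • 1 - eh θ * iot (hl j) := by
  simp only [eh, Finset.mul_sum, Finset.sum_mul, Matrix.mul_smul, Matrix.smul_mul, F2bH.chh,
    smul_sub, Finset.sum_sub_distrib, smul_ite, smul_zero, Finset.sum_ite_eq, Finset.mem_univ,
    if_true]

theorem ctr_eh : ctr θ * eh θ' = (∑ j, θ j * θ' j) • 1 - eh θ' * ctr θ := by
  simp only [ctr, Finset.mul_sum, Finset.sum_mul, Matrix.mul_smul, Matrix.smul_mul, iot_eh,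
    smul_sub, Finset.sum_sub_distrib, smul_smul, Finset.sum_smul]

theorem pm_eh : pm n (k + 1) * eh θ = eh θ * pm n k := by
  simp only [eh, Finset.mul_sum, Finset.sum_mul, Matrix.mul_smul, Matrix.smul_mul, f1b.pm_hl]

theorem pm_ctr : pm n k * ctr θ = ctr θ * pm n (k + 1) := by
  simp only [ctr, Finset.mul_sum, Finset.sum_mul, Matrix.mul_smul, Matrix.smul_mul, f1b.pm_ihl]

theorem pm_par : pm n k * par = par * pm n k := by
  rw [pm, par, dgl, Matrix.diagonal_mul_diagonal, Matrix.diagonal_mul_diagonal]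
  simp only [mul_comm]

theorem ctr_zero (h : pm n 0 *ᵥ v = v) : ctr θ *ᵥ v = 0 := by
  rw [← h, Matrix.mulVec_mulVec, ← one_mul (ctr θ), ← f1b.pm_sum, Finset.sum_mul, Finset.sum_mul,
    Finset.sum_eq_zero, Matrix.zero_mulVec]
  intro j _
  rw [pm_ctr, mul_assoc, f1b.pm_mul, if_neg j.succ_ne_zero, mul_zero]

theorem num (h : pm n k *ᵥ v = v) : (∑ j, eps (hl j) * iot (hl j)) *ᵥ v = (k : ℂ) • v := by
  funext I
  have h1 : (tp I : ℂ) = ∑ j : Fin n, if hl j ∈ I then 1 else 0 := by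
    rw [tp, Finset.card_filter, ← Finset.univ_inter I, ← Finset.sum_ite_mem, Finset.univ_inter,
      F2bH.sum_split]
    simp only [F1bH.hl_lt, F1bH.ah_lt, if_true, if_false, ite_self, Finset.sum_const_zero, add_zero]
    push_cast
    rfl
  have h2 := congrFun h I
  rw [pm, Matrix.mulVec_diagonal] at h2
  rw [Matrix.sum_mulVec, Finset.sum_apply, Pi.smul_apply, smul_eq_mul]
  simp only [eps_iot_mulVec]
  split_ifs at h2 with h3
  · rw [← h3, h1, Finset.sum_mul]
    simp only [ite_mul, one_mul, zero_mul]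
  · rw [← h2]
    simp only [zero_mul, ite_self, Finset.sum_const_zero, mul_zero]

theorem sum_eh_ctr {ι : Type} [Fintype ι] {T Z : ι → Fin n → ℂ}
    (h : ∀ j j', ∑ i, T i j * Z i j' = if j = j' then 1 else 0) :
    ∑ i, eh (T i) * ctr (Z i) = ∑ j, eps (hl j) * iot (hl j) := by
  simp only [eh, ctr, Finset.mul_sum, Finset.sum_mul, Matrix.mul_smul, Matrix.smul_mul, smul_smul]
  rw [Finset.sum_comm]
  refine Finset.sum_congr rfl fun j _ => ?_
  rw [Finset.sum_comm]
  simp only [← Finset.sum_smul, mul_comm (Z _ _), h, ite_smul, one_smul, zero_smul,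
    Finset.sum_ite_eq', Finset.mem_univ, if_true]

theorem sum_eh {ι : Type} [Fintype ι] {T : ι → Fin n → ℂ} {a : ι → ℂ}
    (h : ∀ j, ∑ i, a i * T i j = 0) : ∑ i, a i • eh (T i) = 0 := by
  simp only [eh, Finset.smul_sum, smul_smul]
  rw [Finset.sum_comm]
  simp only [← Finset.sum_smul, h, zero_smul, Finset.sum_const_zero]

theorem even_two {A : Fm n} (h : ∀ l, A * eps l = -(eps l * A)) (g : Fin n → Fin n → ℂ) :
    A * (-∑ m, ∑ j, g m j • (eps (ah m) * eps (hl j))) =
      (-∑ m, ∑ j, g m j • (eps (ah m) * eps (hl j))) * A := by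
  have h1 : ∀ a b, A * (eps a * eps b) = eps a * eps b * A := fun a b => by
    rw [← mul_assoc, h, neg_mul, mul_assoc, h, mul_neg, neg_neg, mul_assoc]
  simp only [mul_neg, neg_mul, Finset.mul_sum, Finset.sum_mul, Matrix.mul_smul, Matrix.smul_mul, h1]

end Vale.Agent.P269HS
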