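import Vale.Agent.P269HS.Raw
import Vale.Agent.P269HS.Mat

/-!
# P269, row H5: the horizontal forms as operators
-/

open scoped Manifold ContDiff Topology Matrix
open Filter
open Vale.Agent.P272.K Vale.Agent.P299.IX Vale.Agent.P299.IX.Fock Vale.Agent.P281Z.Hg
  Vale.Agent.P275MC Vale.Agent.P275FM
open Vale.Agent.P269H (CI)
open Vale.Agent.P269HK Vale.Agent.P269HP

noncomputable section

namespace Vale.Agent.P269HS

section

variable {n N : ℕ} {Y : Type} [TopologicalSpace Y] [ChartedSpace (Cm n) Y] (H : HC n Y (Fin N))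

/-- twisted forms of type `(0,*)` -/
def A0 (t : ℕ) : Submodule ℂ (BB n Y) := AA H t ⊓ (PP n Y 0).restrictScalars ℂ

/-- multiplication by the horizontal forms -/
def TT (i : Fin N) : Module.End (RR n Y) (BB n Y) := opm fun p => TM H p.1.1 p.1.2 i * par

/-- multiplication by the curvature -/
def gg : Module.End (RR n Y) (BB n Y) := opm fun p => GM H p.1.1 (H.κ p.1.2) p.1.2 * par

variable {H} {a b t k : ℕ} {v : BB n Y}

theorem mul_A0 {F : Y → ℂ} {m : ℤ} (hF : H.Hs m F) (h : (a : ℤ) = b + m) (hv : v ∈ A0 H a) :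
    (fun p : Pt n Y => F p.1.2) • v ∈ A0 H b := ⟨mul_mem hF h hv.1, (PP n Y 0).smul_mem _ hv.2⟩

theorem σσ_PP (hv : v ∈ PP n Y k) : σσ n Y v ∈ PP n Y k := mem_PP.2 fun p => by
  rw [σσ_apply, Matrix.mulVec_mulVec, pm_par, ← Matrix.mulVec_mulVec, mem_PP.1 hv]

theorem TM_eq (e : Chart n Y) (y : Y) (i : Fin N) : TM H e y i = eh (Θ H e y i) := rfl

theorem TT_apply (i : Fin N) (v : BB n Y) (p : Pt n Y) :
    TT H i v p = (eh (Θ H p.1.1 p.1.2 i) * par) *ᵥ v p := rfl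

theorem ehp (θ θ' : Fin n → ℂ) : eh θ * par * (eh θ' * par) = -(eh θ * eh θ') := by
  rw [mul_assoc, ← mul_assoc par, par_eh, neg_mul, mul_assoc, par_sq, mul_one, mul_neg]

theorem TT_TT (i j : Fin N) : TT H i * TT H j = -(TT H j * TT H i) :=
  LinearMap.ext fun v => funext fun p => by
    show TT H i (TT H j v) p = -TT H j (TT H i v) p
    simp only [TT_apply, Matrix.mulVec_mulVec, ehp]
    rw [eh_eh, Matrix.neg_mulVec]

theorem TT_PP (i : Fin N) (hv : v ∈ PP n Y k) : TT H i v ∈ PP n Y (k + 1) := mem_PP.2 fun p => by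
  rw [TT_apply, Matrix.mulVec_mulVec, ← mul_assoc, pm_eh, mul_assoc, pm_par, ← mul_assoc,
    ← Matrix.mulVec_mulVec _ _ (pm n k), mem_PP.1 hv]

theorem σσ_TT (i : Fin N) (v : BB n Y) : σσ n Y (TT H i v) = -TT H i (σσ n Y v) :=
  funext fun p => by
    rw [Pi.neg_apply, σσ_apply, TT_apply, TT_apply, σσ_apply, Matrix.mulVec_mulVec,
      Matrix.mulVec_mulVec, ← mul_assoc, par_eh, neg_mul, Matrix.neg_mulVec]

theorem gg_TT (i : Fin N) (v : BB n Y) : gg H (TT H i v) = -TT H i (gg H v) := funext fun p => by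
  rw [Pi.neg_apply, gg, TT_apply, opm_apply, opm_apply, TT_apply, Matrix.mulVec_mulVec,
    Matrix.mulVec_mulVec, ← Matrix.neg_mulVec, mul_assoc, ← mul_assoc par, par_eh, GM,
    mul_assoc (eh _) par (_ * _), ← mul_assoc par, even_two par_eps, mul_assoc _ par par,
    ← mul_assoc (eh _) _ (par * par), even_two fun l => by rw [eps_eh, neg_neg]]
  simp only [mul_neg, neg_mul, mul_assoc]

theorem sum_TT {f : Fin N → RR n Y} (h : ∀ p j, ∑ i, f i p * Θ H p.1.1 p.1.2 i j = 0) :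
    ∑ i, f i • TT H i = 0 := LinearMap.ext fun v => funext fun p => by
  rw [LinearMap.sum_apply, Finset.sum_apply]
  show ∑ i, f i p • (eh (Θ H p.1.1 p.1.2 i) * par) *ᵥ v p = 0
  simp only [← Matrix.smul_mulVec, ← Matrix.smul_mul]
  rw [← Matrix.sum_mulVec, ← Finset.sum_mul, sum_eh (h p), zero_mul, Matrix.zero_mulVec]

theorem ctr_TT (ζ : Pt n Y → Fin n → ℂ) (i : Fin N) (v : BB n Y) :
    opm (fun p => par * ctr (ζ p)) (TT H i v) =
      (fun p : Pt n Y => ∑ j, ζ p j * Θ H p.1.1 p.1.2 i j) • v -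
        TT H i (opm (fun p => par * ctr (ζ p)) v) := funext fun p => by
  show _ = (∑ j, ζ p j * Θ H p.1.1 p.1.2 i j) • v p - TT H i _ p
  rw [opm_apply, TT_apply, TT_apply, opm_apply, Matrix.mulVec_mulVec, Matrix.mulVec_mulVec,
    mul_assoc, ← mul_assoc (ctr _), ctr_eh, mul_assoc (eh _) par, ← mul_assoc par par, par_sq,
    one_mul, sub_mul, mul_sub, Matrix.smul_mul, Matrix.mul_smul, one_mul, par_sq,
    ← mul_assoc par, ← mul_assoc par, par_eh, neg_mul, mul_assoc (eh _) par, par_ctr, mul_neg,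
    neg_neg, mul_assoc, mul_assoc, par_sq, mul_one, Matrix.sub_mulVec, Matrix.smul_mulVec,
    Matrix.one_mulVec]

theorem sm_sum {f : Fin n → Cm n → ℂ} {z : Cm n} (hf : ∀ j, ContDiffAt ℝ ∞ (f j) z)
    (A : Fin n → Fm n) {w : Cm n → Fo n} (hw : ContDiffAt ℝ ∞ w z) :
    ContDiffAt ℝ ∞ (fun x => ∑ j, f j x • A j *ᵥ w x) z :=
  ContDiffAt.sum fun j _ => (hf j).fun_smul (Ka.cd_mul _ hw)

variable [IsManifold 𝓘(ℂ, Cm n) ω Y]

theorem TT_AA (tcv : TCV) (i : Fin N) (hv : v ∈ AA H (t + 1)) : TT H i v ∈ AA H t := by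
  obtain ⟨-, h1, h2⟩ := tcv n N Y H
  refine op_mem (F := fun e y => TM H e y i * par) (m := 1) (fun e e' y he he' => ?_)
    (fun e y k he hk w hw => ?_) (Nat.cast_succ t) hv
  · rw [mul_assoc, par_lam, ← mul_assoc, h1 e e' y i he he', mul_assoc]
  · refine (sm_sum (fun j => h2 e y k i j he hk) (fun j => eps (hl j) * par)
      hw).congr_of_eventuallyEq (.of_forall fun z => ?_)
    simp only [TM, Finset.sum_mul, Matrix.sum_mulVec, Finset.smul_sum, Matrix.smul_mul,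
      Matrix.smul_mulVec, smul_smul, zpow_one, div_eq_inv_mul]

theorem DD_TT (tcv : TCV) (dtl : DTL) (i : Fin N) (hv : v ∈ AA H (t + 1)) :
    DD H t (TT H i v) = TT H i (DD H (t + 1) v) + (fun p : Pt n Y => H.x p.1.2 i) • gg H v :=
  funext fun p => by
    obtain ⟨u, hu⟩ := hv (H.κ p.1.2)
    obtain ⟨w, hw⟩ := TT_AA tcv i hv (H.κ p.1.2)
    have h0 := H.κ_ne p.1.2
    have h := dtl n N Y H p.1.1 p.1.2 _ i u w p.2 h0 ((H.near h0).mono fun x hx hx' => by
      rw [val_eq hu hx', val_eq hw hx', Matrix.mulVec_smul, smul_smul, pow_succ',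
        inv_mul_cancel_left₀ hx]
      rfl)
    rw [← val_apply, ← val_apply, DD_κ p hu, DD_κ p hw, val_eq hu p.2, Matrix.mulVec_smul,
      Matrix.mulVec_smul, smul_smul, smul_smul, pow_succ', inv_mul_cancel_left₀ h0, ← mul_assoc,
      div_mul_cancel₀ _ h0, mul_comm, mul_smul, ← smul_add] at h
    exact smul_right_injective _ (pow_ne_zero t h0) h

theorem span_TT (hc : CTR)
    (hi : ∀ e y, At e y → ∀ t : Fin n → ℂ, (∀ i, ∑ j, t j * Θ H e y i j = 0) → t = 0)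
    (hv : v ∈ AA H t) (hp : v ∈ PP n Y (k + 1)) : ∃ u : Fin N → BB n Y,
      (∀ i, u i ∈ AA H (t + 1) ∧ u i ∈ PP n Y k) ∧ v = ∑ i, TT H i (u i) := by
  obtain ⟨ζ, h1, h2, h3⟩ := hc n N Y H hi
  refine ⟨fun i => opm (fun p => ((k + 1 : ℕ) : ℂ)⁻¹ • (par * ctr (ζ p.1.1 p.1.2 i))) v,
    fun i => ⟨op_mem (F := fun e y => ((k + 1 : ℕ) : ℂ)⁻¹ • (par * ctr (ζ e y i))) (m := -1)
      (fun e e' y he he' => ?_) (fun e y l he hl w hw => ?_) (by push_cast; ring) hv,
      mem_PP.2 fun p => ?_⟩, funext fun p => ?_⟩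
  · rw [Matrix.smul_mul, Matrix.mul_smul, mul_assoc, h2 e e' y i he he', ← mul_assoc, par_lam,
      mul_assoc]
  · refine (sm_sum (fun j => h3 e y l i j he hl)
      (fun j => ((k + 1 : ℕ) : ℂ)⁻¹ • (par * iot (P281Z.Hg.hl j))) hw).congr_of_eventuallyEq
      (.of_forall fun z => ?_)
    simp only [ctr, Finset.mul_sum, Matrix.sum_mulVec, Finset.smul_sum, Matrix.mul_smul,
      Matrix.smul_mulVec, smul_smul, zpow_neg, zpow_one, inv_inv, mul_assoc, mul_comm]
  · beta_reduce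
    rw [opm_apply, Matrix.mulVec_mulVec, Matrix.mul_smul, ← mul_assoc, pm_par, mul_assoc, pm_ctr,
      ← mul_assoc, ← Matrix.smul_mul, ← Matrix.mulVec_mulVec, mem_PP.1 hp]
  · simp only [Finset.sum_apply, TT_apply, opm_apply, Matrix.mulVec_mulVec, Matrix.mul_smul,
      mul_assoc, ← mul_assoc par par, par_sq, one_mul]
    rw [← Matrix.sum_mulVec, ← Finset.smul_sum, sum_eh_ctr (h1 _ _ p.2), Matrix.smul_mulVec,
      num (mem_PP.1 hp p), smul_smul, inv_mul_cancel₀ (Nat.cast_ne_zero.2 k.succ_ne_zero), one_smul]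

end

end Vale.Agent.P269HS
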