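import Vale.Agent.P269HS.Rec

/-!
# The comparison with the forms of holomorphic degree `p`
-/

noncomputable section

namespace Vale.Agent.P269HS

open Vale.Agent.P299.IX Vale.Agent.P299.IX.Fock Vale.Agent.P275FM

variable {R B : Type} [CommRing R] [Algebra ℂ R] [AddCommGroup B] [Module R B] [Module ℂ B]
  [IsScalarTower ℂ R B] {N c : ℕ} {d : ℕ → ℕ}

namespace Dat

/-- the projector on the horizontal tangent space -/
def Pi (G : Dat R B N c d) (i k : Fin N) : R :=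
  (Pi.single i 1 : Fin N → R) k - G.y i * G.x k - ∑ j ∈ Finset.range c, G.a j i * G.ξ j k

/-- twisted forms of all types -/
structure Ext (G : Dat R B N c d) where
  A : ℕ → Submodule ℂ B
  P : ℕ → Submodule R B
  T : Fin N → Module.End R B
  I : Fin N → Module.End R B
  g : Module.End R B
  hA : ∀ n v, v ∈ G.A n ↔ v ∈ A n ∧ v ∈ P 0
  TT : ∀ i j, T i * T j = -(T j * T i)
  TA : ∀ i n, ∀ v ∈ A (n + 1), T i v ∈ A n
  TP : ∀ i p, ∀ v ∈ P p, T i v ∈ P (p + 1)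
  DT : ∀ i n, ∀ v ∈ A (n + 1), G.D n (T i v) = T i (G.D (n + 1) v) + G.x i • g v
  gT : ∀ i v, g (T i v) = -T i (g v)
  σT : ∀ i v, G.σ (T i v) = -T i (G.σ v)
  yT : ∑ i, G.y i • T i = 0
  aT : ∀ j < c, ∑ i, G.a j i • T i = 0
  IT : ∀ i k v, I i (T k v) = G.Pi i k • v - T k (I i v)
  I0 : ∀ i, ∀ v ∈ P 0, I i v = 0
  span : ∀ n p, ∀ v ∈ A n, v ∈ P (p + 1) →
    ∃ u : Fin N → B, (∀ i, u i ∈ A (n + 1) ∧ u i ∈ P p) ∧ v = ∑ i, T i (u i)

variable {G : Dat R B N c d} {p n : ℕ} {w u : FI N → B}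

theorem W_succ : G.W p (n + 1) = Wp N (G.A (n + (p + 1))) p := by
  rw [W, show n + 1 + p = n + (p + 1) by omega]

theorem DW_succ : G.DW p (n + 1) = G.DW (p + 1) n := by
  rw [DW, DW, show n + 1 + p = n + (p + 1) by omega]

theorem ep_W (l : Fin N) (hu : u ∈ G.W p (n + 1)) : act R (eps l) u ∈ G.W (p + 1) n :=
  eps_W l (W_succ (G := G) ▸ hu)

theorem W_le (S : Submodule ℂ (FI N → B)) (h : ∀ l, ∀ u ∈ G.W p (n + 1), act R (eps l) u ∈ S)
    (hw : w ∈ G.W (p + 1) n) : w ∈ S := by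
  have h1 : ((p + 1 : ℕ) : ℂ) • w ∈ S := num_W (R := R) hw ▸ S.sum_mem fun l _ =>
    h l _ (W_succ (G := G) ▸ iot_W l hw)
  exact (S.smul_mem_iff (Nat.cast_ne_zero.2 p.succ_ne_zero)).1 h1

theorem J_ep (b : Fin N → R) (l : Fin N) (u : FI N → B) :
    J b (act R (eps l) u) = b l • u - act R (eps l) (J b u) := by
  have h := J_E b (Pi.single l 1) u
  rw [E_single] at h
  simpa [Pi.single_apply] using h

theorem sum_ep_J (hw : w ∈ G.W p n) : ∑ i, act R (eps i) (J (G.Pi i) w) =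
    (p : ℂ) • w - E G.y (J G.x w) - ∑ j ∈ Finset.range c, E (G.a j) (J (G.ξ j) w) := by
  have h : ∀ i, J (G.Pi i) w = act R (iot i) w - G.y i • J G.x w -
      ∑ j ∈ Finset.range c, G.a j i • J (G.ξ j) w := fun i => by
    rw [← J_single]
    simp only [J, Pi, LinearMap.sum_apply, LinearMap.smul_apply, sub_smul, Finset.sum_sub_distrib,
      Finset.sum_smul, Finset.smul_sum, smul_smul]
    rw [Finset.sum_comm (s := Finset.range c)]
  simp only [h, map_sub, map_sum, Finset.sum_sub_distrib, E_apply]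
  rw [num_W hw, Finset.sum_comm (s := Finset.range c)]

theorem Pi_A (i k : Fin N) {s : ℕ} {v : B} (hv : v ∈ G.A (s + 1)) : G.Pi i k • v ∈ G.A (s + 1) := by
  rw [Pi, sub_smul, sub_smul, Finset.sum_smul, mul_smul]
  refine Submodule.sub_mem _ (Submodule.sub_mem _ ?_
    (G.hy i s _ rfl _ (G.hx k _ s rfl v hv))) (Submodule.sum_mem _ fun j hj => ?_)
  · rw [Pi.single_apply]
    split_ifs
    · rwa [one_smul]
    · rw [zero_smul]
      exact Submodule.zero_mem _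
  · rw [mul_smul]
    exact G.ha j (Finset.mem_range.1 hj) i (s + d j) _ (by omega) _
      (G.hξ j (Finset.mem_range.1 hj) k _ _ (by omega) v hv)

variable (G) in
/-- the multiples of the smooth covector dual to the Euler field -/
def Y (p n : ℕ) : Submodule ℂ (FI N → B) := Submodule.span ℂ
  {w | ∃ q u, p = q + 1 ∧ u ∈ G.W q n ∧ w = E G.y u}

theorem Y_le {V : Type*} [AddCommGroup V] [Module ℂ V] (f : (FI N → B) →ₗ[ℂ] V)
    {S : Submodule ℂ V} (h : ∀ q u, p = q + 1 → u ∈ G.W q n → f (E G.y u) ∈ S)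
    (hw : w ∈ G.Y p n) : f w ∈ S :=
  (Submodule.span_le (p := S.comap f)).2 (by
    rintro _ ⟨q, u, e, hu, rfl⟩
    exact h q u e hu) hw

theorem genY (hu : u ∈ G.W p n) : E G.y u ∈ G.Y (p + 1) n :=
  Submodule.subset_span ⟨p, u, rfl, hu, rfl⟩

namespace Ext

variable (X : G.Ext) {Φ : (FI N → B) →ₗ[R] B} (h1 : ∀ l w, Φ (act R (eps l) w) = X.T l (Φ w))
  (h0 : ∀ (A : Submodule ℂ B), ∀ w ∈ Wp N A 0, Φ w = w ∅)
include h1

theorem phi_E (b : Fin N → R) (w : FI N → B) : Φ (E b w) = (∑ i, b i • X.T i) (Φ w) := by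
  simp only [E_apply, map_sum, h1, map_smul, LinearMap.sum_apply, LinearMap.smul_apply]

theorem phi_F (hw : w ∈ G.F c p n) : Φ w = 0 :=
  F_le (Φ.restrictScalars ℂ) (S := ⊥) (fun j hj _ u _ _ => by
    show Φ _ = 0
    rw [X.phi_E h1, X.aT j hj, LinearMap.zero_apply]) hw

include h0

theorem phi_mem (hw : w ∈ G.W p n) : Φ w ∈ X.A n ∧ Φ w ∈ X.P p := by
  induction p generalizing n w with
  | zero => exact h0 _ _ hw ▸ (X.hA _ _).1 (hw ∅).1
  | succ p ih =>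
    refine W_le ((X.A n ⊓ (X.P (p + 1)).restrictScalars ℂ).comap (Φ.restrictScalars ℂ))
      (fun l u hu => ?_) hw
    show Φ _ ∈ X.A n ∧ Φ _ ∈ X.P (p + 1)
    rw [h1]
    exact ⟨X.TA l n _ (ih hu).1, X.TP l p _ (ih hu).2⟩

theorem phi_D (hw : w ∈ G.W p n) : G.D n (Φ w) = Φ (G.DW p n w) + X.g (Φ (J G.x w)) := by
  induction p generalizing n w with
  | zero => rw [J_W0 _ hw, map_zero, map_zero, add_zero, h0 _ _ hw, h0 _ _ (DW_W hw)]; rfl
  | succ p ih =>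
    refine W_le (LinearMap.eqLocus (G.D n ∘ₗ Φ.restrictScalars ℂ)
      (Φ.restrictScalars ℂ ∘ₗ G.DW (p + 1) n + (X.g ∘ₗ Φ ∘ₗ J G.x).restrictScalars ℂ))
      (fun l u hu => ?_) hw
    show G.D n (Φ _) = Φ (G.DW (p + 1) n _) + X.g (Φ (J G.x _))
    rw [h1, X.DT l n _ (X.phi_mem h1 h0 hu).1, ih hu, DW_succ, DW, pw_act, h1, J_ep, map_sub,
      map_sub, h1, X.gT, map_smul, map_smul, map_add]
    abel

theorem phi_σ (hw : w ∈ G.W p n) : Φ (G.σW w) = (-1 : ℂ) ^ p • G.σ (Φ w) := by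
  induction p generalizing n w with
  | zero => rw [pow_zero, one_smul, h0 _ _ hw, h0 _ _ (σW_W hw)]; rfl
  | succ p ih =>
    refine W_le (LinearMap.eqLocus (Φ.restrictScalars ℂ ∘ₗ G.σW)
      ((-1 : ℂ) ^ (p + 1) • G.σ ∘ₗ Φ.restrictScalars ℂ)) (fun l u hu => ?_) hw
    show Φ (G.σW _) = (-1 : ℂ) ^ (p + 1) • G.σ (Φ _)
    rw [σW, pw_act, h1, h1, X.σT, ← σW, ih hu, LinearMap.map_smul_of_tower, pow_succ, mul_smul,
      neg_one_smul, neg_neg]

theorem phi_I (i : Fin N) (hw : w ∈ G.W p n) : X.I i (Φ w) = Φ (J (G.Pi i) w) := by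
  induction p generalizing n w with
  | zero => rw [J_W0 _ hw, map_zero, X.I0 i _ (X.phi_mem h1 h0 hw).2]
  | succ p ih =>
    refine W_le (LinearMap.eqLocus ((X.I i ∘ₗ Φ).restrictScalars ℂ)
      ((Φ ∘ₗ J (G.Pi i)).restrictScalars ℂ)) (fun l u hu => ?_) hw
    show X.I i (Φ _) = Φ (J (G.Pi i) _)
    rw [h1, X.IT, ih hu, J_ep, map_sub, h1, map_smul]

theorem phi_ker (hw : w ∈ G.W p n) (h : Φ w = 0) : w ∈ G.F c p n ⊔ G.Y p n := by
  induction p generalizing n w with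
  | zero =>
    have : w = 0 := funext fun I => by
      rcases I.eq_empty_or_nonempty with rfl | k
      · exact (h0 _ _ hw).symm.trans h
      · exact (hw I).2 k.card_pos.ne'
    exact this ▸ Submodule.zero_mem _
  | succ p ih =>
    have k1 : ∀ i, act R (eps i) (J (G.Pi i) w) ∈ G.F c (p + 1) n ⊔ G.Y (p + 1) n := fun i => by
      have k0 : J (G.Pi i) w ∈ G.W p (n + 1) := by
        rw [W_succ]
        exact J_W (fun k v hv => Pi_A i k (s := n + p) hv) hw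
      obtain ⟨f, hf, η, hη, e⟩ := Submodule.mem_sup.1 (ih k0
        (by rw [← X.phi_I h1 h0 i hw, h, map_zero]))
      rw [← e, map_add, ← E_single]
      refine Submodule.add_mem_sup (E_F (fun k s t e v hv => ?_) hf) (Y_le (Ec _) ?_ hη)
      · obtain rfl : t = s := by omega
        rw [Pi.single_apply]
        split_ifs
        · rwa [one_smul]
        · rw [zero_smul]
          exact Submodule.zero_mem _
      · rintro q u rfl hu
        show E _ _ ∈ _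
        rw [E_E, E_single]
        exact Submodule.neg_mem _ (genY (ep_W i hu))
    have k2 := Submodule.add_mem _ (Submodule.add_mem _
      (sum_ep_J hw ▸ Submodule.sum_mem _ fun i _ => k1 i)
      (Submodule.mem_sup_left (Submodule.sum_mem _ fun j hj =>
        EJ_F (Finset.mem_range.1 hj) (Finset.mem_range.1 hj) hw)))
      (Submodule.mem_sup_right (genY (Jx_W hw)))
    rw [sub_add_cancel, sub_add_cancel] at k2
    exact (Submodule.smul_mem_iff _ (Nat.cast_ne_zero.2 p.succ_ne_zero)).1 k2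

theorem phi_inj (hw : w ∈ G.Z p) (h : Φ w = 0) : w ∈ G.F c p 0 := by
  obtain ⟨f, hf, η, hη, e⟩ := Submodule.mem_sup.1 (X.phi_ker h1 h0 hw.1 h)
  have k1 : E G.y η = 0 := Y_le (Ec G.y) (S := ⊥) (fun _ u _ _ => E_sq _ u) hη
  have k2 : J G.x (E G.y w) ∈ G.F c p 0 := by
    rw [← e, map_add, k1, add_zero]
    exact Jx_F (E_F (fun i _ _ e => G.hy i _ _ (by omega)) hf)
  have k3 := Submodule.add_mem _ k2 (EJ_Z hw)
  rwa [J_E, G.xy, one_smul, sub_add_cancel] at k3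

theorem phi_surj {v : B} (hv : v ∈ X.A n) (hp : v ∈ X.P p) : ∃ w ∈ G.W p n, Φ w = v := by
  induction p generalizing n v with
  | zero =>
    have k : (Pi.single ∅ v : FI N → B) ∈ G.W 0 n := fun I => by
      rcases I.eq_empty_or_nonempty with rfl | k
      · exact ⟨by rw [Pi.single_eq_same]; exact (X.hA _ _).2 ⟨hv, hp⟩, fun h => (h rfl).elim⟩
      · rw [Pi.single_eq_of_ne k.ne_empty]
        exact ⟨Submodule.zero_mem _, fun _ => rfl⟩
    exact ⟨_, k, by rw [h0 _ _ k, Pi.single_eq_same]⟩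
  | succ p ih =>
    obtain ⟨u, hu, rfl⟩ := X.span n p v hv hp
    choose w hw e using fun i => ih (hu i).1 (hu i).2
    exact ⟨∑ i, act R (eps i) (w i), Submodule.sum_mem _ fun i _ => ep_W i (hw i), by
      simp only [map_sum, h1, e]⟩

omit h1 h0 in
/-- the subquotient is a model of the forms of holomorphic degree `p` -/
theorem model (p : ℕ) : ∃ i : SQ (G.Z p) (G.F c p 0) →ₗ[ℂ] B, Function.Injective i ∧
    (∀ v, (v ∈ X.A 0 ∧ v ∈ X.P p) ↔ ∃ t, i t = v) ∧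
    (∀ t, G.D 0 (i t) = i (sqm _ _ _ _ (G.DW p 0) t)) ∧
    ∀ t, i (sqm _ _ _ _ G.σW t) = (-1 : ℂ) ^ p • G.σ (i t) := by
  obtain ⟨Φ, h1, h0⟩ := ex_phi X.T X.TT
  obtain ⟨i, hi⟩ := ex_lift (W := G.Z p) (F := G.F c p 0) (Φ.restrictScalars ℂ)
    fun w _ h => X.phi_F h1 h
  have hi' : ∀ w hw, i (cl _ w hw) = Φ w := hi
  refine ⟨i, (injective_iff_map_eq_zero i).2 fun t ht => ?_, fun v => ⟨fun h => ?_, ?_⟩,
    fun t => ?_, fun t => ?_⟩
  · obtain ⟨w, hw, rfl⟩ := cl_ind t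
    exact cl_zero.2 (X.phi_inj h1 h0 hw ((hi' w hw).symm.trans ht))
  · obtain ⟨w, hw, rfl⟩ := X.phi_surj h1 h0 h.1 h.2
    refine ⟨cl _ _ (Jx_Z (Ey_W hw)), ?_⟩
    rw [hi', J_E, G.xy, one_smul, map_sub, X.phi_E h1, X.yT, LinearMap.zero_apply, sub_zero]
  · rintro ⟨t, rfl⟩
    obtain ⟨w, hw, rfl⟩ := cl_ind t
    exact (hi' w hw).symm ▸ X.phi_mem h1 h0 hw.1
  · obtain ⟨w, hw, rfl⟩ := cl_ind t
    rw [sqm_cl okZ.d, hi', hi', X.phi_D h1 h0 hw.1, X.phi_F h1 (mem_Z.1 hw).2, map_zero, add_zero]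
  · obtain ⟨w, hw, rfl⟩ := cl_ind t
    rw [sqm_cl okZ.s, hi', hi', X.phi_σ h1 h0 hw.1]

end Ext

end Dat

end Vale.Agent.P269HS
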