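import Vale.Agent.P269HS.Spec

/-!
# P269, row H5: twisted forms of all types as functions on pairs (chart, point)
-/

open scoped Manifold ContDiff Topology Matrix
open Filter
open Vale.Agent.P272.K Vale.Agent.P299.IX Vale.Agent.P299.IX.Fock Vale.Agent.P281Z.Hg
  Vale.Agent.P281Z.Hg.G1H Vale.Agent.P281Z.Hg.G2H Vale.Agent.P275MC Vale.Agent.P275FM
open Vale.Agent.P275AR (ty ty_vl)
open Vale.Agent.P277Z (Hol)
open Vale.Agent.P269HK

noncomputable section

namespace Vale.Agent.P269HS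

variable {n : ℕ} {Y : Type} [TopologicalSpace Y] [ChartedSpace (Cm n) Y] {I : Type}

variable (n Y) in
/-- pairs of a chart and a point of its source -/
abbrev Pt : Type := {p : Chart n Y × Y // At p.1 p.2}

variable (n Y) in
/-- scalar functions -/
abbrev RR : Type := Pt n Y → ℂ

variable (n Y) in
/-- form valued functions -/
abbrev BB : Type := Pt n Y → Fo n

variable (n Y) in
/-- the values of a form -/
def val : SF n Y →ₗ[ℂ] BB n Y where
  toFun u p := vl u p.1.1 (p.1.1 p.1.2)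
  map_add' _ _ := funext fun _ => vl_add _ _ _ _
  map_smul' _ _ := funext fun _ => vl_smul _ _ _ _

theorem val_apply (u : SF n Y) (p : Pt n Y) : val n Y u p = vl u p.1.1 (p.1.1 p.1.2) := rfl

theorem val_inj : Function.Injective (val n Y) := fun _ _ h =>
  ext' fun e y he => congrFun h ⟨(e, y), he⟩

/-- pointwise operators -/
def opm (F : Pt n Y → Fm n) : Module.End (RR n Y) (BB n Y) where
  toFun v p := F p *ᵥ v p
  map_add' _ _ := funext fun _ => Matrix.mulVec_add _ _ _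
  map_smul' φ v := funext fun p => Matrix.mulVec_smul (F p) (φ p) (v p)

theorem opm_apply (F : Pt n Y → Fm n) (v : BB n Y) (p : Pt n Y) : opm F v p = F p *ᵥ v p := rfl

variable (n Y) in
/-- holomorphic degree `k` -/
def PP (k : ℕ) : Submodule (RR n Y) (BB n Y) := LinearMap.eqLocus (opm fun _ => pm n k) .id

theorem mem_PP {k : ℕ} {v : BB n Y} : v ∈ PP n Y k ↔ ∀ p, pm n k *ᵥ v p = v p := funext_iff

variable (H : HC n Y I)

/-- powers of the coordinates -/
def xp (k : I) (t : ℕ) : RR n Y := fun p => H.x p.1.2 k ^ t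

/-- the forms with values in `O(-t)` -/
def AA (t : ℕ) : Submodule ℂ (BB n Y) where
  carrier := {v | ∀ k, ∃ u, val n Y u = xp H k t • v}
  add_mem' := fun {a b} ha hb k => by
    obtain ⟨u, hu⟩ := ha k
    obtain ⟨w, hw⟩ := hb k
    exact ⟨u + w, by rw [map_add, hu, hw, smul_add]⟩
  zero_mem' := fun _ => ⟨0, by rw [map_zero, smul_zero]⟩
  smul_mem' := fun c a ha k => by
    obtain ⟨u, hu⟩ := ha k
    exact ⟨c • u, by rw [map_smul, hu, smul_comm]⟩

variable {H} {t a b : ℕ} {v : BB n Y} {u : SF n Y} {k : I}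

theorem val_eq (h : val n Y u = xp H k t • v) {e : Chart n Y} {y : Y} (he : At e y) :
    vl u e (e y) = H.x y k ^ t • v ⟨(e, y), he⟩ := congrFun h ⟨(e, y), he⟩

theorem ex_w (hv : v ∈ AA H t) : ∃ w : Chart n Y → Y → Fo n, (∀ p, v p = w p.1.1 p.1.2) ∧
    (∀ e y k, At e y → ContDiffAt ℝ ∞ (fun z => H.x (e.symm z) k ^ t • w e (e.symm z)) (e y)) ∧
    ∀ e e' y, At e y → At e' y → w e y = lam (jt e e' y) *ᵥ w e' y := by
  classical
  refine ⟨fun e y => if h : At e y then v ⟨(e, y), h⟩ else 0, fun p => by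
    simp only [dif_pos p.2],
    fun e y k he => ?_, fun e e' y he he' => ?_⟩
  · obtain ⟨u, hu⟩ := hv k
    refine ((vl_isF u).sm e y he).congr_of_eventuallyEq (ev_at he (.of_forall fun x hx => ?_))
    show H.x (e.symm (e x)) k ^ t • (if h : At e (e.symm (e x)) then v ⟨(e, e.symm (e x)), h⟩
      else 0) = _
    rw [e.left_inv hx.2, dif_pos hx, val_eq hu hx]
  · obtain ⟨u, hu⟩ := hv (H.κ y)
    have h := (vl_isF u).ch e e' y he he'
    rw [val_eq hu he, val_eq hu he', Matrix.mulVec_smul] at h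
    simp only [dif_pos he, dif_pos he']
    exact smul_right_injective _ (pow_ne_zero t (H.κ_ne y)) h

theorem of_w (w : Chart n Y → Y → Fo n) (h1 : ∀ e y, At e y → ∃ k, H.x y k ≠ 0 ∧
      ContDiffAt ℝ ∞ (fun z => H.x (e.symm z) k ^ t • w e (e.symm z)) (e y))
    (h2 : ∀ e e' y, At e y → At e' y → w e y = lam (jt e e' y) *ᵥ w e' y)
    (h : ∀ p, v p = w p.1.1 p.1.2) : v ∈ AA H t := fun i => by
  obtain ⟨u, hu⟩ := mkf (fun e z => H.x (e.symm z) i ^ t • w e (e.symm z)) (fun e y he => by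
    obtain ⟨k, hk, h⟩ := h1 e y he
    refine ((((smt_of_hol (H.hol y k hk i)).pow t) e he).fun_smul h).congr_of_eventuallyEq ?_
    filter_upwards [ev_symm he (H.near hk)] with z hz
    rw [smul_smul, ← mul_pow, div_mul_cancel₀ _ hz]) fun e e' y he he' => by
    rw [e.left_inv he.2, e'.left_inv he'.2, Matrix.mulVec_smul, ← h2 e e' y he he']
  refine ⟨u, funext fun p => ?_⟩
  rw [val_apply, hu _ p.2.1 _ (p.1.1.map_source p.2.2), p.1.1.left_inv p.2.2, ← h]
  rfl

/-- covariant smooth operators of weight `m` act on twisted forms -/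
theorem op_mem {F : Chart n Y → Y → Fm n} {m : ℤ}
    (hc : ∀ e e' y, At e y → At e' y → F e y * lam (jt e e' y) = lam (jt e e' y) * F e' y)
    (hs : ∀ e y k, At e y → H.x y k ≠ 0 → ∀ w : Cm n → Fo n, ContDiffAt ℝ ∞ w (e y) →
      ContDiffAt ℝ ∞ (fun z => (H.x (e.symm z) k ^ m)⁻¹ • F e (e.symm z) *ᵥ w z) (e y))
    (h : (a : ℤ) = b + m) (hv : v ∈ AA H a) : opm (fun p => F p.1.1 p.1.2) v ∈ AA H b := by
  obtain ⟨w, h1, h2, h3⟩ := ex_w hv
  refine of_w (fun e y => F e y *ᵥ w e y) (fun e y he => ⟨_, H.κ_ne y, ?_⟩)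
    (fun e e' y he he' => ?_) fun p => by rw [opm_apply, h1]
  · refine (hs e y _ he (H.κ_ne y) _ (h2 e y (H.κ y) he)).congr_of_eventuallyEq ?_
    filter_upwards [ev_symm he (H.near (H.κ_ne y))] with z hz
    rw [Matrix.mulVec_smul, smul_smul, ← zpow_natCast _ a, h, zpow_add₀ hz, zpow_natCast,
      mul_comm (_ ^ b), inv_mul_cancel_left₀ (zpow_ne_zero m hz)]
  · rw [h3 e e' y he he', Matrix.mulVec_mulVec, hc e e' y he he', Matrix.mulVec_mulVec]

theorem mul_mem {F : Y → ℂ} {m : ℤ} (hF : H.Hs m F) (h : (a : ℤ) = b + m) (hv : v ∈ AA H a) :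
    (fun p : Pt n Y => F p.1.2) • v ∈ AA H b := by
  have k := op_mem (F := fun _ y => F y • (1 : Fm n)) (m := m)
    (fun _ _ _ _ _ => by rw [Matrix.smul_mul, Matrix.mul_smul, one_mul, mul_one])
    (fun e y k he hk w hw => ((hF y k hk e he).fun_smul hw).congr_of_eventuallyEq
      (.of_forall fun z => by
        simp only [Matrix.smul_mulVec, Matrix.one_mulVec, smul_smul, div_eq_inv_mul])) h hv
  have k2 : opm (fun p : Pt n Y => F p.1.2 • (1 : Fm n)) v = (fun p : Pt n Y => F p.1.2) • v :=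
    funext fun p => by
      rw [opm_apply, Matrix.smul_mulVec, Matrix.one_mulVec]
      rfl
  exact k2 ▸ k

theorem mem_AA0 : v ∈ AA H 0 ↔ ∃ u, val n Y u = v := by
  have h : ∀ k, xp H k 0 • v = v := fun k => funext fun p => one_smul ℂ (v p)
  refine ⟨fun hv => ?_, fun hv k => (h k).symm ▸ hv⟩
  by_cases k : Nonempty (Pt n Y)
  · exact h (H.κ k.some.1.2) ▸ hv _
  · exact ⟨0, funext fun p => (k ⟨p⟩).elim⟩

theorem cancel {w : BB n Y} (h : ∀ k, xp H k t • v = xp H k t • w) : v = w := funext fun p =>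
  smul_right_injective _ (pow_ne_zero t (H.κ_ne p.1.2)) (congrFun (h _) p)

variable (n Y) in
/-- the parity -/
def σσ : Module.End ℂ (BB n Y) := (opm fun _ => par).restrictScalars ℂ

theorem σσ_apply (v : BB n Y) (p : Pt n Y) : σσ n Y v p = par *ᵥ v p := rfl

theorem σσ_smul (φ : RR n Y) (v : BB n Y) : σσ n Y (φ • v) = φ • σσ n Y v :=
  (opm fun _ => par).map_smul φ v

theorem val_pr (u : SF n Y) : val n Y (pr n Y u) = σσ n Y (val n Y u) :=
  funext fun p => pr_vl u p.2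

theorem σσ_mem (hv : v ∈ AA H t) : σσ n Y v ∈ AA H t := fun k =>
  (hv k).elim fun u hu => ⟨pr n Y u, by rw [val_pr, hu, σσ_smul]⟩

variable (n Y) in
/-- a left inverse of `val` -/
def lv : BB n Y →ₗ[ℂ] SF n Y :=
  ((val n Y).exists_leftInverse_of_injective (LinearMap.ker_eq_bot.2 val_inj)).choose

theorem lv_val (u : SF n Y) : lv n Y (val n Y u) = u := LinearMap.congr_fun
  ((val n Y).exists_leftInverse_of_injective (LinearMap.ker_eq_bot.2 val_inj)).choose_spec u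

variable [IsManifold 𝓘(ℂ, Cm n) ω Y]

theorem val_PP {j : ℕ} : val n Y u ∈ PP n Y j ↔ ty n Y j u = u :=
  mem_PP.trans ⟨fun h => ext' fun e y he => (ty_vl j u e y he).trans (h ⟨(e, y), he⟩),
    fun h p => (ty_vl j u _ _ p.2).symm.trans (by rw [h]; rfl)⟩

variable (H t) in
/-- delbar on twisted forms -/
def DD : Module.End ℂ (BB n Y) := LinearMap.pi fun p => (H.x p.1.2 (H.κ p.1.2) ^ t)⁻¹ •
  (LinearMap.proj p ∘ₗ val n Y ∘ₗ dlb n Y ∘ₗ lv n Y ∘ₗ
    (LinearMap.lsmul (RR n Y) (BB n Y) (xp H (H.κ p.1.2) t)).restrictScalars ℂ)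

theorem DD_κ (p : Pt n Y) (hu : val n Y u = xp H (H.κ p.1.2) t • v) :
    val n Y (dlb n Y u) p = H.x p.1.2 (H.κ p.1.2) ^ t • DD H t v p := by
  show _ = _ • (H.x p.1.2 (H.κ p.1.2) ^ t)⁻¹ •
    val n Y (dlb n Y (lv n Y (xp H (H.κ p.1.2) t • v))) p
  rw [← hu, lv_val, smul_smul, mul_inv_cancel₀ (pow_ne_zero _ (H.κ_ne _)), one_smul]

theorem DD_of {F : Y → ℂ} (hF : H.Hh t F) (hv : v ∈ AA H t)
    (hu : val n Y u = (fun p : Pt n Y => F p.1.2) • v) :
    val n Y (dlb n Y u) = (fun p : Pt n Y => F p.1.2) • DD H t v := funext fun p => by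
  obtain ⟨w, hw⟩ := hv (H.κ p.1.2)
  have h := dlb_hol (u := w) (w := u) (hF p.1.2 _ (H.κ_ne _)) p.2
    ((H.near (H.κ_ne p.1.2)).mono fun x hx hx' => by
      rw [val_eq hw hx', smul_smul, zpow_natCast, div_mul_cancel₀ _ (pow_ne_zero _ hx)]
      exact congrFun hu ⟨(_, x), hx'⟩)
  rw [← val_apply, ← val_apply, DD_κ p hw, smul_smul, zpow_natCast,
    div_mul_cancel₀ _ (pow_ne_zero _ (H.κ_ne _))] at h
  exact h

omit [IsManifold 𝓘(ℂ, Cm n) ω Y] in
theorem hh_xp (k : I) (t : ℕ) : H.Hh t fun y => H.x y k ^ t := fun y j hj e he => by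
  simpa only [zpow_natCast, div_pow] using (H.hol y j hj k e he).fun_pow t

theorem DD_val (hv : v ∈ AA H t) (hu : val n Y u = xp H k t • v) :
    val n Y (dlb n Y u) = xp H k t • DD H t v := DD_of (hh_xp k t) hv hu

theorem DD_mem (hv : v ∈ AA H t) : DD H t v ∈ AA H t := fun k =>
  (hv k).elim fun _ hu => ⟨_, DD_val hv hu⟩

theorem DD_PP {j : ℕ} (hv : v ∈ AA H t) (hp : v ∈ PP n Y j) : DD H t v ∈ PP n Y j :=
  cancel (H := H) (t := t) fun k => by
    obtain ⟨u, hu⟩ := hv k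
    have h1 : ty n Y j u = u := val_PP.1 (hu ▸ (PP n Y j).smul_mem _ hp)
    have h2 : val n Y (dlb n Y u) ∈ PP n Y j := val_PP.2 (by rw [ty_dlb, h1])
    rw [DD_val hv hu] at h2
    rw [← map_smul]
    exact h2

theorem DD_DD (hv : v ∈ AA H t) : DD H t (DD H t v) = 0 := cancel (H := H) (t := t) fun k => by
  obtain ⟨u, hu⟩ := hv k
  rw [← DD_val (DD_mem hv) (DD_val hv hu), dlb_dlb, map_zero, smul_zero]

theorem DD_σσ (hv : v ∈ AA H t) : DD H t (σσ n Y v) = -σσ n Y (DD H t v) :=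
  cancel (H := H) (t := t) fun k => by
    obtain ⟨u, hu⟩ := hv k
    rw [← DD_val (u := pr n Y u) (σσ_mem hv) (by rw [val_pr, hu, σσ_smul]), dlb_pr, map_neg, val_pr,
      DD_val hv hu, σσ_smul, smul_neg]

theorem DD_mul {F : Y → ℂ} {m : ℤ} (hF : H.Hh m F) (h : (a : ℤ) = b + m) (hv : v ∈ AA H a) :
    DD H b ((fun p : Pt n Y => F p.1.2) • v) = (fun p : Pt n Y => F p.1.2) • DD H a v :=
  cancel (H := H) (t := b) fun k => by
    obtain ⟨u, hu⟩ := mul_mem hF.hs h hv k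
    rw [← DD_val (mul_mem hF.hs h hv) hu, smul_smul]
    exact DD_of (h ▸ (hh_xp k b).mul hF) hv (by rw [hu, smul_smul]; rfl)

theorem DD_zero (u : SF n Y) : DD H 0 (val n Y u) = val n Y (dlb n Y u) := by
  have h := DD_of (H := H) (t := 0) (F := fun _ => 1) (u := u) (HC.hh_const 1)
    (mem_AA0.2 ⟨u, rfl⟩) (one_smul (RR n Y) _).symm
  exact (h.trans (one_smul (RR n Y) _)).symm

variable (H t) in
/-- the comparison with the twisted forms of type `(0,*)` -/
def ρρ : H.A t →ₗ[ℂ] BB n Y where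
  toFun v p := HC.hv v p.1.1 p.1.2
  map_add' _ _ := funext fun _ => HC.hv_add _ _ _ _
  map_smul' _ _ := funext fun _ => HC.hv_smul _ _ _ _

theorem ρρ_inj : Function.Injective (ρρ H t) := fun _ _ h =>
  HC.hv_ext fun e y he => congrFun h ⟨(e, y), he⟩

theorem val_ρρ (w : H.A t) (k : I) : val n Y (w.1 k) = xp H k t • ρρ H t w :=
  funext fun p => HC.vl_eq w p.2 k

theorem ρρ_mem (w : H.A t) : ρρ H t w ∈ AA H t := fun k => ⟨_, val_ρρ w k⟩

theorem ρρ_range : (v ∈ AA H t ∧ v ∈ PP n Y 0) ↔ ∃ w, ρρ H t w = v := by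
  refine ⟨fun ⟨hv, hp⟩ => ?_, ?_⟩
  · choose u hu using hv
    refine ⟨⟨u, fun k => val_PP.1 ((hu k).symm ▸ (PP n Y 0).smul_mem _ hp), fun e y he i j => ?_⟩,
      cancel (H := H) (t := t) fun k => ?_⟩
    · rw [val_eq (hu i) he, val_eq (hu j) he, smul_comm]
    · rw [← val_ρρ, ← hu]
  · rintro ⟨w, rfl⟩
    exact ⟨ρρ_mem w, mem_PP.2 fun p => HC.hv_ty w p.2⟩

theorem DD_ρρ (w : H.A t) : DD H t (ρρ H t w) = ρρ H t (H.D t w) :=
  cancel (H := H) (t := t) fun k => by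
    rw [← DD_val (ρρ_mem w) (val_ρρ w k), ← val_ρρ, HC.D_val]

theorem σσ_ρρ (w : H.A t) : σσ n Y (ρρ H t w) = ρρ H t (H.σ t w) :=
  funext fun p => (HC.hv_σ w p.2).symm

end Vale.Agent.P269HS
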