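import Vale.Agent.P269HS.Fk

/-!
# The recursions for the exterior powers of the bundles `V_j`
-/

noncomputable section

namespace Vale.Agent.P269HS

open Vale.Agent.P299.IX Vale.Agent.P299.IX.Fock Vale.Agent.P275FM

/-- twisted forms with their multipliers -/
structure Dat (R B : Type) [CommRing R] [Algebra ℂ R] [AddCommGroup B] [Module R B] [Module ℂ B]
    (N c : ℕ) (d : ℕ → ℕ) where
  A : ℕ → Submodule ℂ B
  D : ℕ → Module.End ℂ B
  σ : Module.End ℂ B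
  a : ℕ → Fin N → R
  ξ : ℕ → Fin N → R
  x : Fin N → R
  y : Fin N → R
  DA : ∀ n, ∀ v ∈ A n, D n v ∈ A n
  σA : ∀ n, ∀ v ∈ A n, σ v ∈ A n
  DD : ∀ n, ∀ v ∈ A n, D n (D n v) = 0
  Dσ : ∀ n, ∀ v ∈ A n, D n (σ v) = -σ (D n v)
  σR : ∀ (φ : R) v, σ (φ • v) = φ • σ v
  ha : ∀ j < c, ∀ i s t, t + d j = s + 1 → ∀ v ∈ A s, a j i • v ∈ A t
  Da : ∀ j < c, ∀ i s t, t + d j = s + 1 → ∀ v ∈ A s, D t (a j i • v) = a j i • D s v
  hξ : ∀ j < c, ∀ i s t, t + 1 = s + d j → ∀ v ∈ A s, ξ j i • v ∈ A t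
  hx : ∀ i s t, t + 1 = s → ∀ v ∈ A s, x i • v ∈ A t
  Dx : ∀ i s t, t + 1 = s → ∀ v ∈ A s, D t (x i • v) = x i • D s v
  hy : ∀ i s t, t = s + 1 → ∀ v ∈ A s, y i • v ∈ A t
  ξa : ∀ j < c, ∀ k < c, ∑ i, ξ j i * a k i = if j = k then 1 else 0
  xy : ∑ i, x i * y i = 1
  xa : ∀ j < c, ∑ i, x i * a j i = 0

variable {R B : Type} [CommRing R] [Algebra ℂ R] [AddCommGroup B] [Module R B] [Module ℂ B]
  [IsScalarTower ℂ R B] {N c : ℕ} {d : ℕ → ℕ}

/-- exterior multiplication as a complex linear map -/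
def Ec (a : Fin N → R) : Module.End ℂ (FI N → B) := (E a).restrictScalars ℂ

/-- contraction as a complex linear map -/
def Jc (a : Fin N → R) : Module.End ℂ (FI N → B) := (J a).restrictScalars ℂ

namespace Dat

variable (G : Dat R B N c d)

/-- forms with values in `Λ^p V_0 (-n)` -/
def W (p n : ℕ) : Submodule ℂ (FI N → B) := Wp N (G.A (n + p)) p

/-- the differential -/
def DW (p n : ℕ) : Module.End ℂ (FI N → B) := pw (FI N) (G.D (n + p))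

/-- the parity -/
def σW : Module.End ℂ (FI N → B) := pw (FI N) G.σ

/-- the relations -/
def F (s p n : ℕ) : Submodule ℂ (FI N → B) := Submodule.span ℂ
  {w | ∃ j < s, ∃ q u, p = q + 1 ∧ u ∈ G.W q (n + d j) ∧ w = E (G.a j) u}

/-- the kernel of the contraction with the Euler field -/
def Z (p : ℕ) : Submodule ℂ (FI N → B) := G.W p 0 ⊓ (G.F c (p - 1) 0).comap (Jc G.x)

variable {G} {s p n m j : ℕ} {w u : FI N → B}

theorem gen (hj : j < s) (hu : u ∈ G.W p (n + d j)) : E (G.a j) u ∈ G.F s (p + 1) n :=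
  Submodule.subset_span ⟨j, hj, p, u, rfl, hu, rfl⟩

theorem F_le {V : Type*} [AddCommGroup V] [Module ℂ V] (f : (FI N → B) →ₗ[ℂ] V)
    {S : Submodule ℂ V} (h : ∀ j < s, ∀ q u, p = q + 1 → u ∈ G.W q (n + d j) →
      f (E (G.a j) u) ∈ S) (hw : w ∈ G.F s p n) : f w ∈ S :=
  (Submodule.span_le (p := S.comap f)).2 (by
    rintro _ ⟨j, hj, q, u, e, hu, rfl⟩
    exact h j hj q u e hu) hw

theorem F_zero : G.F 0 p n = ⊥ := eq_bot_iff.2 fun _ hw =>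
  F_le LinearMap.id (S := ⊥) (fun _ h => (Nat.not_lt_zero _ h).elim) hw

theorem F_zero' : G.F s 0 n = ⊥ := eq_bot_iff.2 fun _ hw =>
  F_le LinearMap.id (S := ⊥) (fun _ _ _ _ h => (Nat.succ_ne_zero _ h.symm).elim) hw

theorem F_mono (hw : w ∈ G.F s p n) : w ∈ G.F (s + 1) p n :=
  F_le LinearMap.id (fun _ hj _ _ e hu => e ▸ gen (by omega) hu) hw

theorem Ea_W (hj : j < c) (hu : u ∈ G.W p (n + d j)) : E (G.a j) u ∈ G.W (p + 1) n :=
  E_W (fun i => G.ha j hj i _ _ (by omega)) hu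

theorem F_W (hs : s ≤ c) (hw : w ∈ G.F s p n) : w ∈ G.W p n :=
  F_le LinearMap.id (fun _ hj _ _ e hu => e ▸ Ea_W (by omega) hu) hw

theorem DW_W (hw : w ∈ G.W p n) : G.DW p n w ∈ G.W p n := pw_W (G.DA _) hw

theorem σW_W (hw : w ∈ G.W p n) : G.σW w ∈ G.W p n := pw_W (G.σA _) hw

theorem D_Ea (hj : j < c) (hu : u ∈ G.W p (n + d j)) :
    G.DW (p + 1) n (E (G.a j) u) = E (G.a j) (G.DW p (n + d j) u) :=
  pw_E (fun i => G.Da j hj i _ _ (by omega)) hu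

theorem σ_E (b : Fin N → R) (hu : u ∈ G.W p n) : G.σW (E b u) = E b (G.σW u) :=
  pw_E (fun _ v _ => G.σR _ v) hu

theorem σ_J (b : Fin N → R) (hu : u ∈ G.W p n) : G.σW (J b u) = J b (G.σW u) :=
  pw_J (fun _ v _ => G.σR _ v) hu

theorem D_Jx (hu : u ∈ G.W (p + 1) n) : G.DW p n (J G.x u) = J G.x (G.DW (p + 1) n u) :=
  pw_J (fun i => G.Dx i _ _ rfl) hu

theorem DW_F (hs : s ≤ c) (hw : w ∈ G.F s p n) : G.DW p n w ∈ G.F s p n :=
  F_le _ (fun j hj q u e hu => by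
    subst e
    rw [D_Ea (by omega) hu]
    exact gen hj (DW_W hu)) hw

theorem σW_F (hw : w ∈ G.F s p n) : G.σW w ∈ G.F s p n :=
  F_le _ (fun j hj q u e hu => by
    subst e
    rw [σ_E _ hu]
    exact gen hj (σW_W hu)) hw

theorem DW_DW (hw : w ∈ G.W p n) : G.DW p n (G.DW p n w) = 0 := funext fun I => G.DD _ _ (hw I).1

theorem DW_σW (hw : w ∈ G.W p n) : G.DW p n (G.σW w) = -G.σW (G.DW p n w) :=
  funext fun I => G.Dσ _ _ (hw I).1

theorem ok (hs : s ≤ c) : Ok (G.W p n) (G.F s p n) (G.DW p n) G.σW :=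
  ⟨⟨fun _ => DW_W, fun _ _ => DW_F hs⟩, ⟨fun _ => σW_W, fun _ _ => σW_F⟩,
    fun _ h => by rw [DW_DW h]; exact Submodule.zero_mem _,
    fun _ h => by rw [DW_σW h, neg_add_cancel]; exact Submodule.zero_mem _⟩

theorem E_F {b : Fin N → R} (hb : ∀ i s t, t + n = s + m + 1 → ∀ v ∈ G.A s, b i • v ∈ G.A t)
    (hw : w ∈ G.F s p n) : E b w ∈ G.F s (p + 1) m :=
  F_le (Ec b) (fun j hj q u e hu => by
    subst e
    show E b _ ∈ _
    rw [E_E]
    exact Submodule.neg_mem _ (gen hj (E_W (fun i => hb i _ _ (by omega)) hu))) hw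

theorem J_F {b : Fin N → R} (hb : ∀ i s t, t + n + 1 = s + m → ∀ v ∈ G.A s, b i • v ∈ G.A t)
    (h0 : ∀ j < s, ∑ i, b i * G.a j i = 0) (hw : w ∈ G.F s (p + 1) n) : J b w ∈ G.F s p m :=
  F_le (Jc b) (fun j hj q u e hu => by
    obtain rfl : p = q := by omega
    show J b _ ∈ _
    rw [J_E, h0 j hj, zero_smul, zero_sub]
    refine Submodule.neg_mem _ ?_
    rcases p with _ | p
    · rw [J_W0 _ hu, map_zero]
      exact Submodule.zero_mem _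
    · exact gen hj (J_W (fun i => hb i _ _ (by omega)) hu)) hw

theorem EJ_F (hj : j < s) (hc : j < c) (hw : w ∈ G.W p n) :
    E (G.a j) (J (G.ξ j) w) ∈ G.F s p n := by
  rcases p with _ | p
  · rw [J_W0 _ hw, map_zero]
    exact Submodule.zero_mem _
  · exact gen hj (J_W (fun i => G.hξ j hc i _ _ (by omega)) hw)

theorem ses1 (hs : s < c) : SesQ (G.W p (n + d s)) (G.F (s + 1) p (n + d s)) (G.W (p + 1) n)
    (G.F s (p + 1) n) (G.W (p + 1) n) (G.F (s + 1) (p + 1) n) (G.DW p (n + d s)) G.σW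
    (G.DW (p + 1) n) G.σW (G.DW (p + 1) n) G.σW (Ec (G.a s)) LinearMap.id where
  o₁ := ok hs
  o := ok hs.le
  o₂ := ok hs
  hi := ⟨fun _ => Ea_W hs, fun _ _ => F_le _ fun j hj q u e hu => by
    subst e
    show E (G.a s) _ ∈ _
    rcases (Nat.lt_succ_iff.1 hj).eq_or_lt with rfl | h
    · rw [E_sq]
      exact Submodule.zero_mem _
    · rw [E_E]
      exact Submodule.neg_mem _ (gen h (E_W (fun i => G.ha s hs i _ _ (by omega)) hu))⟩
  hp := ⟨fun _ h => h, fun _ _ => F_mono⟩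
  di w hw := (sub_eq_zero.2 (D_Ea hs hw)).symm ▸ Submodule.zero_mem _
  dp w _ := (sub_self (G.DW (p + 1) n w)).symm ▸ Submodule.zero_mem _
  si w hw := (sub_eq_zero.2 (σ_E _ hw)).symm ▸ Submodule.zero_mem _
  sp w _ := (sub_self (G.σW w)).symm ▸ Submodule.zero_mem _
  inj w hw h := by
    have h1 : J (G.ξ s) (E (G.a s) w) ∈ G.F s p (n + d s) :=
      J_F (fun i s' t e => G.hξ s hs i _ _ (by omega))
        (fun j hj => by rw [G.ξa s hs j (by omega), if_neg (by omega)]) h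
    rw [J_E, G.ξa s hs s hs, if_pos rfl, one_smul] at h1
    have h2 := Submodule.add_mem _ (F_mono h1) (EJ_F s.lt_succ_self hs hw)
    rwa [sub_add_cancel] at h2
  surj w hw := ⟨w, hw, (sub_self w).symm ▸ Submodule.zero_mem _⟩
  ex w _ h := by
    have h1 : w ∈ G.F s (p + 1) n ⊔ (G.W p (n + d s)).map (Ec (G.a s)) :=
      F_le LinearMap.id (fun j hj q u e hu => by
        obtain rfl : p = q := by omega
        rcases (Nat.lt_succ_iff.1 hj).eq_or_lt with rfl | h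
        · exact Submodule.mem_sup_right ⟨u, hu, rfl⟩
        · exact Submodule.mem_sup_left (gen h hu)) h
    obtain ⟨f, hf, _, ⟨v, hv, rfl⟩, rfl⟩ := Submodule.mem_sup.1 h1
    exact ⟨v, hv, by rwa [add_sub_cancel_right]⟩
  pi w hw := gen s.lt_succ_self hw

theorem mem_Z : w ∈ G.Z p ↔ w ∈ G.W p 0 ∧ J G.x w ∈ G.F c (p - 1) 0 := Iff.rfl

theorem Jx_W (hw : w ∈ G.W (p + 1) n) : J G.x w ∈ G.W p n :=
  J_W (fun i => G.hx i _ _ rfl) hw

theorem Jx_F (hw : w ∈ G.F c (p + 1) n) : J G.x w ∈ G.F c p n :=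
  J_F (fun i _ _ e => G.hx i _ _ (by omega)) G.xa hw

theorem Ey_W (hw : w ∈ G.W p n) : E G.y w ∈ G.W (p + 1) n := E_W (fun i => G.hy i _ _ rfl) hw

theorem Z_zero : G.Z 0 = G.W 0 0 := le_antisymm inf_le_left fun _ h =>
  mem_Z.2 ⟨h, by rw [J_W0 _ h]; exact Submodule.zero_mem _⟩

theorem okZ : Ok (G.Z p) (G.F c p 0) (G.DW p 0) G.σW := by
  refine ⟨⟨fun w h => mem_Z.2 ⟨DW_W h.1, ?_⟩, fun _ _ => DW_F le_rfl⟩,
    ⟨fun w h => mem_Z.2 ⟨σW_W h.1, ?_⟩, fun _ _ => σW_F⟩,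
    fun _ h => (ok le_rfl).dd _ h.1, fun _ h => (ok le_rfl).ds _ h.1⟩
  · rcases p with _ | p
    · rw [J_W0 _ (DW_W h.1)]
      exact Submodule.zero_mem _
    · rw [← D_Jx h.1]
      exact DW_F le_rfl (mem_Z.1 h).2
  · rw [← σ_J _ h.1]
    exact σW_F (mem_Z.1 h).2

theorem EJ_Z (hw : w ∈ G.Z p) : E G.y (J G.x w) ∈ G.F c p 0 := by
  rcases p with _ | p
  · rw [J_W0 _ hw.1, map_zero]
    exact Submodule.zero_mem _
  · exact E_F (fun i _ _ e => G.hy i _ _ (by omega)) (mem_Z.1 hw).2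

theorem Jx_Z (hw : w ∈ G.W (p + 1) 0) : J G.x w ∈ G.Z p :=
  mem_Z.2 ⟨Jx_W hw, by rw [J_sq]; exact Submodule.zero_mem _⟩

theorem ses2 : SesQ (G.Z (p + 1)) (G.F c (p + 1) 0) (G.W (p + 1) 0) (G.F c (p + 1) 0) (G.Z p)
    (G.F c p 0) (G.DW (p + 1) 0) G.σW (G.DW (p + 1) 0) G.σW (G.DW p 0) G.σW LinearMap.id
    (Jc G.x) where
  o₁ := okZ
  o := ok le_rfl
  o₂ := okZ
  hi := ⟨fun _ h => h.1, fun _ _ h => h⟩
  hp := ⟨fun _ => Jx_Z, fun _ _ => Jx_F⟩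
  di w _ := (sub_self (G.DW (p + 1) 0 w)).symm ▸ Submodule.zero_mem _
  dp w hw := (sub_eq_zero.2 (D_Jx hw)).symm ▸ Submodule.zero_mem _
  si w _ := (sub_self (G.σW w)).symm ▸ Submodule.zero_mem _
  sp w hw := (sub_eq_zero.2 (σ_J _ hw)).symm ▸ Submodule.zero_mem _
  inj _ _ h := h
  surj w hw := ⟨E G.y w, Ey_W hw.1, by
    show J G.x _ - w ∈ _
    rw [J_E, G.xy, one_smul, sub_sub_cancel_left]
    exact Submodule.neg_mem _ (EJ_Z hw)⟩
  ex w hw h := ⟨w, mem_Z.2 ⟨hw, h⟩, (sub_self w).symm ▸ Submodule.zero_mem _⟩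
  pi w hw := (mem_Z.1 hw).2

/-- the case of the trivial bundle -/
theorem base {T : Type*} [AddCommGroup T] [Module ℂ T] {D₀ σ₀ : Module.End ℂ T} {ρ : T →ₗ[ℂ] B}
    (hρ : Function.Injective ρ) (hA : ∀ v, v ∈ G.A (n + p) ↔ ∃ t, ρ t = v)
    (hD : ∀ t, G.D (n + p) (ρ t) = ρ (D₀ t)) (hσ : ∀ t, G.σ (ρ t) = ρ (σ₀ t)) (h0 : Fd D₀) :
    FdQ (G.W p n) ⊥ (G.DW p n) ∧ chQ (G.W p n) ⊥ (G.DW p n) G.σW = N.choose p * chi D₀ σ₀ := by
  let ι := {I : FI N // I.card = p}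
  let f : (ι → T) →ₗ[ℂ] FI N → B := LinearMap.pi fun I =>
    if h : I.card = p then ρ ∘ₗ LinearMap.proj (⟨I, h⟩ : ι) else 0
  have f1 : ∀ v (I : FI N) (h : I.card = p), f v I = ρ (v ⟨I, h⟩) := fun v I h => by
    simp only [f, LinearMap.pi_apply, dif_pos h, LinearMap.comp_apply, LinearMap.proj_apply]
  have f2 : ∀ v (I : FI N), I.card ≠ p → f v I = 0 := fun v I h => by
    simp only [f, LinearMap.pi_apply, dif_neg h, LinearMap.zero_apply]
  have hm : ∀ t, ρ t ∈ G.A (n + p) := fun t => (hA _).2 ⟨t, rfl⟩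
  have hc : ∀ (X : Module.End ℂ B) (X₀ : Module.End ℂ T), (∀ t, X (ρ t) = ρ (X₀ t)) → ∀ v,
      pw (FI N) X (f v) = f (pw ι X₀ v) := fun X X₀ h v => funext fun I => by
    rw [pw_apply]
    by_cases k : I.card = p
    · rw [f1 _ _ k, f1 _ _ k, h, pw_apply]
    · rw [f2 _ _ k, f2 _ _ k, map_zero]
  have hW : ∀ w, w ∈ G.W p n ↔ ∃ v, f v = w := by
    refine fun w => ⟨fun h => ?_, ?_⟩
    · choose v hv using fun I : ι => (hA _).1 (h I.1).1
      refine ⟨v, funext fun I => ?_⟩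
      by_cases k : I.card = p
      · rw [f1 _ _ k, hv]
      · rw [f2 _ _ k, (h I).2 k]
    · rintro ⟨v, rfl⟩ I
      refine ⟨?_, f2 v I⟩
      by_cases k : I.card = p
      · exact f1 v I k ▸ hm _
      · exact f2 v I k ▸ Submodule.zero_mem _
  obtain ⟨k1, k2⟩ := chQ_bot (D₁ := pw ι D₀) (σ₁ := pw ι σ₀) (D := G.DW p n) (σ := G.σW)
    (F_zero (G := G) ▸ ok (Nat.zero_le c))
    (f := f) (fun v v' e => funext fun I => hρ (by rw [← f1, ← f1, e])) hW (hc _ _ hD) (hc _ _ hσ)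
  obtain ⟨k3, k4⟩ := chi_pw ι (σ := σ₀)
    (fun t => hρ (by rw [← hD, ← hD, G.DD _ _ (hm t), map_zero])) h0
    fun t => hρ (by rw [← hD, ← hσ, G.Dσ _ _ (hm t), map_neg, ← hσ, hD])
  refine ⟨k1.1 k3, ?_⟩
  rw [← k2, k4, Fintype.card_finset_len, Fintype.card_fin]

variable (G) in
/-- the Euler characteristic of `Λ^p V_s (-n)` -/
def e (s p n : ℕ) : ℂ := chQ (G.W p n) (G.F s p n) (G.DW p n) G.σW

variable (G) in
/-- the Euler characteristic of `Ω^p` -/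
def o (p : ℕ) : ℂ := chQ (G.Z p) (G.F c p 0) (G.DW p 0) G.σW

theorem fd_all (h0 : ∀ p n, FdQ (G.W p n) ⊥ (G.DW p n)) (hs : s ≤ c) (p n : ℕ) :
    FdQ (G.W p n) (G.F s p n) (G.DW p n) := by
  induction s generalizing p n with
  | zero => exact F_zero (G := G) ▸ h0 p n
  | succ s ih =>
    induction p generalizing n with
    | zero => exact F_zero' (G := G) ▸ h0 0 n
    | succ p ihp => exact (ses1 hs).quo (ihp _) (ih (by omega) _ _)

theorem fd_Z (h0 : ∀ p n, FdQ (G.W p n) ⊥ (G.DW p n)) (p : ℕ) :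
    FdQ (G.Z p) (G.F c p 0) (G.DW p 0) := by
  induction p with
  | zero => exact Z_zero (G := G) ▸ fd_all h0 le_rfl 0 0
  | succ p ih => exact ses2.sub (fd_all h0 le_rfl _ _) ih

theorem e1 (j t : ℕ) : G.e j 0 t = G.e (j + 1) 0 t := by rw [e, e, F_zero', F_zero']

theorem e2 (h0 : ∀ p n, FdQ (G.W p n) ⊥ (G.DW p n)) (hj : j < c) (p t : ℕ) :
    G.e j (p + 1) t = G.e (j + 1) (p + 1) t + G.e (j + 1) p (t + d j) :=
  ((ses1 hj).add (fd_all h0 hj _ _) (fd_all h0 hj _ _)).trans (add_comm _ _)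

theorem ez (hp : N < p) (t : ℕ) : G.e c p t = 0 :=
  (chQ_zero fun _ h => W_big hp h ▸ Submodule.zero_mem _).2

theorem o0 : G.e c 0 0 = G.o 0 := by rw [e, o, Z_zero]

theorem o1 (h0 : ∀ p n, FdQ (G.W p n) ⊥ (G.DW p n)) (p : ℕ) :
    G.e c (p + 1) 0 = G.o (p + 1) + G.o p := ses2.add (fd_Z h0 _) (fd_Z h0 _)

end Dat

end Vale.Agent.P269HS
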