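import Vale.Agent.P269HP.IF
import Vale.Agent.P269HS.Phi

/-!
# P269, row H5: the pointwise and local statements
-/

open scoped Manifold ContDiff Topology Matrix
open Filter
open Vale.Agent.P272.K Vale.Agent.P299.IX Vale.Agent.P299.IX.Fock Vale.Agent.P281Z.Hg
  Vale.Agent.P275FM
open Vale.Agent.P269H (CI)
open Vale.Agent.P269HK Vale.Agent.P269HP

noncomputable section

namespace Vale.Agent.P269HS

section

variable {n N : ℕ} {Y : Type} [TopologicalSpace Y] [ChartedSpace (Cm n) Y] (H : HC n Y (Fin N))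

/-- the smooth covector dual to the Euler field, homogeneous of degree `-1` -/
def yy (y : Y) (k : Fin N) : ℂ := star (H.x y k) / ∑ l, H.x y l * star (H.x y l)

/-- the horizontal part of `dx_i` in the chart `e` -/
def Θ (e : Chart n Y) (y : Y) (i : Fin N) (j : Fin n) : ℂ :=
  ∑ k, H.x y k * dz j (fun z => H.x (e.symm z) i * yy H (e.symm z) k) (e y)

/-- the holomorphic lift with `κ`-th coordinate `1` -/
def sl (e : Chart n Y) (κ i : Fin N) (z : Cm n) : ℂ := H.x (e.symm z) i / H.x (e.symm z) κ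

/-- the connection form -/
def lm (e : Chart n Y) (κ : Fin N) (j : Fin n) (z : Cm n) : ℂ :=
  ∑ k, H.x (e.symm z) κ * yy H (e.symm z) k * dz j (sl H e κ k) z

/-- exterior multiplication by the horizontal part of `dx_i` -/
def TM (e : Chart n Y) (y : Y) (i : Fin N) : Fm n := ∑ j, Θ H e y i j • eps (hl j)

/-- exterior multiplication by the curvature form -/
def GM (e : Chart n Y) (κ : Fin N) (y : Y) : Fm n :=
  -∑ m, ∑ j, dzb m (lm H e κ j) (e y) • (eps (ah m) * eps (hl j))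

end

/-- the differentials of the equations -/
def aa {r c : ℕ} {M : Type} [TopologicalSpace M] [ChartedSpace (Cm r) M] (X : CI r c M)
    (m : Fin c) (y : M) (i : Fin (r + c + 1)) : ℂ :=
  MvPolynomial.eval (X.pt y).rep (MvPolynomial.pderiv i (X.f m))

/-- the local formula -/
def LOC : Prop := ∀ (n N : ℕ) (Y : Type) [TopologicalSpace Y] [ChartedSpace (Cm n) Y]
  [IsManifold 𝓘(ℂ, Cm n) ω Y] (H : HC n Y (Fin N)) (e : Chart n Y) (y : Y) (κ : Fin N),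
  At e y → H.x y κ ≠ 0 → (∀ j, ContDiffAt ℝ ∞ (lm H e κ j) (e y)) ∧
    ∀ i j, Θ H e y i j = H.x y κ * (dz j (sl H e κ i) (e y) - sl H e κ i (e y) * lm H e κ j (e y))

/-- the horizontal forms are smooth forms with values in `O(1)` -/
def TCV : Prop := ∀ (n N : ℕ) (Y : Type) [TopologicalSpace Y] [ChartedSpace (Cm n) Y]
  [IsManifold 𝓘(ℂ, Cm n) ω Y] (H : HC n Y (Fin N)),
  (∀ e e' y i j, At e y → At e' y → Θ H e y i j = ∑ l, jt e e' y (hl j) (hl l) * Θ H e' y i l) ∧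
  (∀ e e' y i, At e y → At e' y → TM H e y i * lam (jt e e' y) = lam (jt e e' y) * TM H e' y i) ∧
  ∀ e y k i j, At e y → H.x y k ≠ 0 →
    ContDiffAt ℝ ∞ (fun z => Θ H e (e.symm z) i j / H.x (e.symm z) k) (e y)

/-- the dual vector fields with values in `O(-1)` -/
def CTR : Prop := ∀ (n N : ℕ) (Y : Type) [TopologicalSpace Y] [ChartedSpace (Cm n) Y]
  [IsManifold 𝓘(ℂ, Cm n) ω Y] (H : HC n Y (Fin N)),
  (∀ e y, At e y → ∀ t : Fin n → ℂ, (∀ i, ∑ j, t j * Θ H e y i j = 0) → t = 0) →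
  ∃ ζ : Chart n Y → Y → Fin N → Fin n → ℂ,
    (∀ e y, At e y → ∀ j j', ∑ i, Θ H e y i j * ζ e y i j' = if j = j' then 1 else 0) ∧
    (∀ e e' y i, At e y → At e' y →
      ctr (ζ e y i) * lam (jt e e' y) = lam (jt e e' y) * ctr (ζ e' y i)) ∧
    ∀ e y k i j, At e y → H.x y k ≠ 0 →
      ContDiffAt ℝ ∞ (fun z => H.x (e.symm z) k * ζ e (e.symm z) i j) (e y)

/-- delbar of a product with a horizontal form -/
def DTL : Prop := ∀ (n N : ℕ) (Y : Type) [TopologicalSpace Y] [ChartedSpace (Cm n) Y]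
  [IsManifold 𝓘(ℂ, Cm n) ω Y] (H : HC n Y (Fin N)) (e : Chart n Y) (y : Y) (κ i : Fin N)
  (u u' : SF n Y), At e y → H.x y κ ≠ 0 →
  (∀ᶠ x in 𝓝 y, At e x → vl u' e (e x) = (H.x x κ)⁻¹ • (TM H e x i * par) *ᵥ vl u e (e x)) →
  vl (dlb n Y u') e (e y) = (H.x y κ)⁻¹ • (TM H e y i * par) *ᵥ vl (dlb n Y u) e (e y) +
    (H.x y i / H.x y κ) • (GM H e κ y * par) *ᵥ vl u e (e y)

/-- the horizontal tangent space of a complete intersection -/
def PTW : Prop := ∀ (r c : ℕ) (M : Type) [TopologicalSpace M] [ChartedSpace (Cm r) M]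
  [IsManifold 𝓘(ℂ, Cm r) ω M] (X : CI r c M) (e : Chart r M) (y : M), At e y →
  (∀ j, ∑ i, yy (hc X) y i * Θ (hc X) e y i j = 0) ∧
  (∀ m j, ∑ i, aa X m y i * Θ (hc X) e y i j = 0) ∧
  (∀ t : Fin r → ℂ, (∀ i, ∑ j, t j * Θ (hc X) e y i j = 0) → t = 0) ∧
  ∀ v : Fin (r + c + 1) → ℂ, ∑ i, yy (hc X) y i * v i = 0 → (∀ m, ∑ i, aa X m y i * v i = 0) →
    ∃ t : Fin r → ℂ, ∀ i, ∑ j, t j * Θ (hc X) e y i j = v i

/-- the conormal frame and a smooth dual frame -/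
def XI : Prop := ∀ (r c : ℕ) (M : Type) [TopologicalSpace M] [ChartedSpace (Cm r) M]
  [IsManifold 𝓘(ℂ, Cm r) ω M] (X : CI r c M),
  (∀ m i, (hc X).Hh ((X.dg m : ℤ) - 1) fun y => aa X m y i) ∧
  (∀ m y, ∑ i, (hc X).x y i * aa X m y i = 0) ∧
  (∀ i, (hc X).Hs (-1) fun y => yy (hc X) y i) ∧
  (∀ y, ∑ i, (hc X).x y i * yy (hc X) y i = 1) ∧
  ∃ ξ : Fin c → M → Fin (r + c + 1) → ℂ,
    (∀ m i, (hc X).Hs (1 - (X.dg m : ℤ)) fun y => ξ m y i) ∧
    (∀ m m' y, ∑ i, ξ m y i * aa X m' y i = if m = m' then 1 else 0) ∧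
    ∀ m y, ∑ i, yy (hc X) y i * ξ m y i = 0

end Vale.Agent.P269HS
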