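import Vale.Agent.P269HS.Chi

/-!
# Euler characteristics of subquotients
-/

noncomputable section

namespace Vale.Agent.P269HS

open Vale.Agent.P275FM

variable {V₁ V V₂ : Type*} [AddCommGroup V₁] [Module ℂ V₁] [AddCommGroup V] [Module ℂ V]
  [AddCommGroup V₂] [Module ℂ V₂]

/-- the subquotient -/
abbrev SQ (W F : Submodule ℂ V) : Type _ := W ⧸ F.submoduleOf W

/-- the class of an element -/
def cl {W : Submodule ℂ V} (F : Submodule ℂ V) (w : V) (h : w ∈ W) : SQ W F :=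
  Submodule.Quotient.mk ⟨w, h⟩

variable {W₁ F₁ : Submodule ℂ V₁} {W F : Submodule ℂ V} {W₂ F₂ : Submodule ℂ V₂}

theorem cl_ind (x : SQ W F) : ∃ w h, x = cl F w h := by
  obtain ⟨⟨w, h⟩, rfl⟩ := Submodule.Quotient.mk_surjective _ x
  exact ⟨w, h, rfl⟩

theorem cl_eq {w w' : V} {h : w ∈ W} {h' : w' ∈ W} : cl F w h = cl F w' h' ↔ w - w' ∈ F :=
  Submodule.Quotient.eq _

theorem cl_zero {w : V} {h : w ∈ W} : cl F w h = 0 ↔ w ∈ F := Submodule.Quotient.mk_eq_zero _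

theorem cl_neg {w : V} (h : w ∈ W) : -cl F w h = cl F (-w) (W.neg_mem h) := rfl

/-- `f` induces a map of subquotients -/
def Ind (W₁ F₁ : Submodule ℂ V₁) (W F : Submodule ℂ V) (f : V₁ →ₗ[ℂ] V) : Prop :=
  (∀ w ∈ W₁, f w ∈ W) ∧ ∀ w ∈ W₁, w ∈ F₁ → f w ∈ F

open Classical in
/-- the induced map -/
def sqm (W₁ F₁ : Submodule ℂ V₁) (W F : Submodule ℂ V) (f : V₁ →ₗ[ℂ] V) :
    SQ W₁ F₁ →ₗ[ℂ] SQ W F :=
  if h : Ind W₁ F₁ W F f then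
    Submodule.mapQ _ _ (f.restrict h.1) fun w hw => h.2 w.1 w.2 hw else 0

theorem sqm_cl {f : V₁ →ₗ[ℂ] V} (h : Ind W₁ F₁ W F f) {w : V₁} (hw : w ∈ W₁) :
    sqm W₁ F₁ W F f (cl F₁ w hw) = cl F (f w) (h.1 w hw) := by
  rw [sqm, dif_pos h]
  rfl

/-- `(D, σ)` makes the subquotient a differential module with parity -/
structure Ok (W F : Submodule ℂ V) (D σ : Module.End ℂ V) : Prop where
  d : Ind W F W F D
  s : Ind W F W F σ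
  dd : ∀ w ∈ W, D (D w) ∈ F
  ds : ∀ w ∈ W, D (σ w) + σ (D w) ∈ F

/-- finite dimensional cohomology -/
def FdQ (W F : Submodule ℂ V) (D : Module.End ℂ V) : Prop := Fd (sqm W F W F D)

/-- the Euler characteristic -/
def chQ (W F : Submodule ℂ V) (D σ : Module.End ℂ V) : ℂ := chi (sqm W F W F D) (sqm W F W F σ)

variable {D₁ σ₁ : Module.End ℂ V₁} {D σ : Module.End ℂ V} {D₂ σ₂ : Module.End ℂ V₂}
  {i : V₁ →ₗ[ℂ] V} {p : V →ₗ[ℂ] V₂}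

theorem Ok.anti (h : Ok W F D σ) (x : SQ W F) :
    sqm W F W F D (sqm W F W F σ x) = -sqm W F W F σ (sqm W F W F D x) := by
  obtain ⟨w, hw, rfl⟩ := cl_ind x
  rw [sqm_cl h.s, sqm_cl h.d, sqm_cl h.d, sqm_cl h.s, cl_neg, cl_eq, sub_neg_eq_add]
  exact h.ds w hw

theorem comm_sq {E₁ : Module.End ℂ V₁} {E : Module.End ℂ V} (h₁ : Ind W₁ F₁ W₁ F₁ E₁)
    (h : Ind W F W F E) (hi : Ind W₁ F₁ W F i) (hc : ∀ w ∈ W₁, E (i w) - i (E₁ w) ∈ F)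
    (x : SQ W₁ F₁) : sqm W F W F E (sqm W₁ F₁ W F i x) = sqm W₁ F₁ W F i (sqm W₁ F₁ W₁ F₁ E₁ x) := by
  obtain ⟨w, hw, rfl⟩ := cl_ind x
  rw [sqm_cl hi, sqm_cl h, sqm_cl h₁, sqm_cl hi, cl_eq]
  exact hc w hw

/-- a short exact sequence of subquotients -/
structure SesQ (W₁ F₁ : Submodule ℂ V₁) (W F : Submodule ℂ V) (W₂ F₂ : Submodule ℂ V₂)
    (D₁ σ₁ : Module.End ℂ V₁) (D σ : Module.End ℂ V) (D₂ σ₂ : Module.End ℂ V₂)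
    (i : V₁ →ₗ[ℂ] V) (p : V →ₗ[ℂ] V₂) : Prop where
  o₁ : Ok W₁ F₁ D₁ σ₁
  o : Ok W F D σ
  o₂ : Ok W₂ F₂ D₂ σ₂
  hi : Ind W₁ F₁ W F i
  hp : Ind W F W₂ F₂ p
  di : ∀ w ∈ W₁, D (i w) - i (D₁ w) ∈ F
  dp : ∀ w ∈ W, D₂ (p w) - p (D w) ∈ F₂
  si : ∀ w ∈ W₁, σ (i w) - i (σ₁ w) ∈ F
  sp : ∀ w ∈ W, σ₂ (p w) - p (σ w) ∈ F₂
  inj : ∀ w ∈ W₁, i w ∈ F → w ∈ F₁
  surj : ∀ w ∈ W₂, ∃ v ∈ W, p v - w ∈ F₂
  ex : ∀ w ∈ W, p w ∈ F₂ → ∃ v ∈ W₁, w - i v ∈ F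
  pi : ∀ w ∈ W₁, p (i w) ∈ F₂

namespace SesQ

variable (h : SesQ W₁ F₁ W F W₂ F₂ D₁ σ₁ D σ D₂ σ₂ i p)
include h

theorem ses : SES (sqm W₁ F₁ W₁ F₁ D₁) (sqm W F W F D) (sqm W₂ F₂ W₂ F₂ D₂) (sqm W₁ F₁ W F i)
    (sqm W F W₂ F₂ p) where
  dd x := by
    obtain ⟨w, hw, rfl⟩ := cl_ind x
    rw [sqm_cl h.o.d, sqm_cl h.o.d, cl_zero]
    exact h.o.dd w hw
  di := comm_sq h.o₁.d h.o.d h.hi h.di
  dp := comm_sq h.o.d h.o₂.d h.hp h.dp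
  inj := by
    rw [injective_iff_map_eq_zero]
    intro x hx
    obtain ⟨w, hw, rfl⟩ := cl_ind x
    rw [sqm_cl h.hi, cl_zero] at hx
    exact cl_zero.2 (h.inj w hw hx)
  surj x := by
    obtain ⟨w, hw, rfl⟩ := cl_ind x
    obtain ⟨v, hv, e⟩ := h.surj w hw
    exact ⟨cl F v hv, by rw [sqm_cl h.hp, cl_eq]; exact e⟩
  ex x := by
    obtain ⟨w, hw, rfl⟩ := cl_ind x
    rw [sqm_cl h.hp, cl_zero]
    constructor
    · intro hx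
      obtain ⟨v, hv, e⟩ := h.ex w hw hx
      exact ⟨cl F₁ v hv, by rw [sqm_cl h.hi, cl_eq]; exact e⟩
    · rintro ⟨y, hy⟩
      obtain ⟨v, hv, rfl⟩ := cl_ind y
      rw [sqm_cl h.hi, cl_eq] at hy
      have := F₂.add_mem (h.hp.2 _ (W.sub_mem hw (h.hi.1 v hv)) hy) (h.pi v hv)
      rwa [map_sub, sub_add_cancel] at this

theorem quo (h1 : FdQ W₁ F₁ D₁) (h0 : FdQ W F D) : FdQ W₂ F₂ D₂ := fd_quo h.ses h1 h0

theorem sub (h0 : FdQ W F D) (h2 : FdQ W₂ F₂ D₂) : FdQ W₁ F₁ D₁ := fd_sub h.ses h0 h2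

theorem add (h1 : FdQ W₁ F₁ D₁) (h2 : FdQ W₂ F₂ D₂) :
    chQ W F D σ = chQ W₁ F₁ D₁ σ₁ + chQ W₂ F₂ D₂ σ₂ :=
  chi_ses h.ses h1 h2 h.o.anti (comm_sq h.o₁.s h.o.s h.hi h.si) (comm_sq h.o.s h.o₂.s h.hp h.sp)

end SesQ

/-- comparison of a differential module with a subquotient without relations -/
theorem chQ_bot (h : Ok W ⊥ D σ) {f : V₁ →ₗ[ℂ] V} (hf : Function.Injective f)
    (hW : ∀ w, w ∈ W ↔ ∃ v, f v = w) (hD : ∀ v, D (f v) = f (D₁ v)) (hσ : ∀ v, σ (f v) = f (σ₁ v)) :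
    (Fd D₁ ↔ FdQ W ⊥ D) ∧ chi D₁ σ₁ = chQ W ⊥ D σ := by
  have hm : ∀ v, f v ∈ W := fun v => (hW _).2 ⟨v, rfl⟩
  let g : V₁ →ₗ[ℂ] SQ W ⊥ := Submodule.mkQ _ ∘ₗ f.codRestrict W hm
  have hg : ∀ v, g v = cl ⊥ (f v) (hm v) := fun _ => rfl
  have hb : Function.Bijective g := by
    constructor
    · intro a b e
      rw [hg, hg, cl_eq, Submodule.mem_bot, sub_eq_zero] at e
      exact hf e
    · intro x
      obtain ⟨w, hw, rfl⟩ := cl_ind x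
      obtain ⟨v, rfl⟩ := (hW w).1 hw
      exact ⟨v, rfl⟩
  have c1 : ∀ v, sqm W ⊥ W ⊥ D (g v) = g (D₁ v) := fun v => by
    rw [hg, hg, sqm_cl h.d, cl_eq, hD, sub_self]
    exact Submodule.zero_mem _
  have c2 : ∀ v, sqm W ⊥ W ⊥ σ (g v) = g (σ₁ v) := fun v => by
    rw [hg, hg, sqm_cl h.s, cl_eq, hσ, sub_self]
    exact Submodule.zero_mem _
  exact ⟨fd_iso c1 hb, chi_iso c1 hb h.anti c2⟩

theorem chQ_zero (h : ∀ w ∈ W, w ∈ F) : FdQ W F D ∧ chQ W F D σ = 0 := by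
  haveI : Subsingleton (SQ W F) := ⟨fun x y => by
    obtain ⟨w, hw, rfl⟩ := cl_ind x
    obtain ⟨v, hv, rfl⟩ := cl_ind y
    exact cl_eq.2 (h _ (W.sub_mem hw hv))⟩
  exact of_subsingleton

/-- the map on a subquotient induced by a map which kills the relations -/
theorem ex_lift (f : V →ₗ[ℂ] V₂) (h : ∀ w ∈ W, w ∈ F → f w = 0) :
    ∃ g : SQ W F →ₗ[ℂ] V₂, ∀ w hw, g (cl F w hw) = f w :=
  ⟨Submodule.liftQ _ (f ∘ₗ W.subtype) fun w hw => h w.1 w.2 hw, fun _ _ => rfl⟩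

end Vale.Agent.P269HS
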